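import Crest.Agent.X37.PT.Mat
import Crest.Agent.X37.Solv

/-!
# Row 37, KS-A: the statement on lists and the algorithm over `ℚ`

An instance has `m` edges and two blocks `s : Bool` of dimension `d`; block `s` consists of a
matrix `M s`, weights `w s e ≥ 0` and vectors `b s e`.  The state is `(x, r)`; the edge `e` is
active iff `r e ≠ 0`.
-/

set_option autoImplicit false

namespace Crest.Agent.X37.KS

open Crest.Agent.Lib.PT Crest.Agent.X37.PT Matrix Finset

/-- a block: the matrix (`d × d`), the weights (`m`), the vectors (`m × d`) -/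
abbrev Blk : Type := List (List ℚ) × List ℚ × List (List ℚ)

/-- an instance `(d, m, R, block true, block false)` -/
abbrev Inp : Type := Un × Un × Un × Blk × Blk

/-- a state `(x, r)` -/
abbrev St : Type := List ℚ × List ℚ

/-- the dimension -/
def dim (a : Inp) : ℕ := a.1.n

/-- the number of edges -/
def ne (a : Inp) : ℕ := a.2.1.n

/-- the parameter `R` (the discrepancy is `2 / R`) -/
def par (a : Inp) : ℕ := a.2.2.1.n

/-- the block of sign `s` -/
def blk (a : Inp) (s : Bool) : Blk := bif s then a.2.2.2.1 else a.2.2.2.2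

/-- the matrix of a block -/
def Mq (a : Inp) (s : Bool) (i j : ℕ) : ℚ := ent (blk a s).1 i j

/-- the weights of a block -/
def wq (a : Inp) (s : Bool) (e : ℕ) : ℚ := vent (blk a s).2.1 e

/-- the vectors of a block -/
def bq (a : Inp) (s : Bool) (e i : ℕ) : ℚ := ent (blk a s).2.2 e i

/-- the real matrix of a block -/
def MR (a : Inp) (s : Bool) : Matrix (Fin (dim a)) (Fin (dim a)) ℝ := matR (dim a) (Mq a s)

/-- the real vectors of a block -/
def bR (a : Inp) (s : Bool) (e : ℕ) : Fin (dim a) → ℝ := fun i => (bq a s e i : ℝ)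

/-- valid instances -/
structure Valid (a : Inp) : Prop where
  par_pos : 1 ≤ par a
  pd : ∀ s, (MR a s).PosDef
  w_nonneg : ∀ s, ∀ e < ne a, 0 ≤ wq a s e
  dom : ∀ s (z : Fin (dim a) → ℝ),
    ∑ e ∈ range (ne a), (wq a s e : ℝ) * (bR a s e ⬝ᵥ z) ^ 2 ≤ z ⬝ᵥ MR a s *ᵥ z
  lev : ∀ s, ∀ e < ne a,
    (wq a s e : ℝ) * (bR a s e ⬝ᵥ (MR a s)⁻¹ *ᵥ bR a s e) * (2 ^ 18 * (par a : ℝ) ^ 2) ≤ 1

/-- the specification of the signs: in block `true` the signed sum is at most `(2 / R) M`, in
block `false` it is at least `-(2 / R) M` -/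
def Spec (a : Inp) (σ : List Bool) : Prop :=
  σ.length = ne a ∧ ∀ s (z : Fin (dim a) → ℝ),
    ∑ e ∈ range (ne a), (if σ.getD e false = s then 1 else -1) *
      ((wq a s e : ℝ) * (bR a s e ⬝ᵥ z) ^ 2) ≤ 2 / (par a : ℝ) * (z ⬝ᵥ MR a s *ᵥ z)

/-- **KS-A** -/
def KSStatement : Prop := Solvable Valid Spec

/-! ### the parameters -/

/-- bound for the number of active edges -/
def pM (a : Inp) : ℕ := ne a + 1

/-- bound for the potential -/
def pT (a : Inp) : ℕ := 2 ^ 17 * pM a * par a

/-- the grid -/
def pQ (a : Inp) : ℕ := 2 ^ 30 * pM a ^ 4 * pT a ^ 5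

/-- the number of rounds -/
def pN (a : Inp) : ℕ := 2 * pT a * pQ a + 1

/-- the step length -/
def tauQ (a : Inp) : ℚ := 1 / (100 * (pM a : ℚ) * (pT a : ℚ))

/-! ### the potential -/

/-- the sign of a block -/
def sgQ (s : Bool) : ℚ := bif s then 1 else -1

/-- the barrier matrix -/
def PQ (a : Inp) (z : St) (s : Bool) (i j : ℕ) : ℚ :=
  2 / (par a : ℚ) * Mq a s i j -
    ∑ e ∈ range (ne a), (sgQ s * vent z.1 e + vent z.2 e) * (wq a s e * bq a s e i * bq a s e j)

/-- the Gram matrix of the unweighted vectors -/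
noncomputable def gQ (a : Inp) (z : St) (s : Bool) (e f : ℕ) : ℚ :=
  ∑ i ∈ range (dim a), bq a s e i *
    ∑ j ∈ range (dim a), invF (dim a) (PQ a z s) i j * bq a s f j

/-- the squares of the Gram matrix of the weighted vectors -/
noncomputable def hQ (a : Inp) (z : St) (s : Bool) (e f : ℕ) : ℚ :=
  wq a s e * wq a s f * gQ a z s e f ^ 2

/-- the reserve -/
def yQ (z : St) (e : ℕ) : ℚ := 1 / 2 ^ 19 * vent z.2 e * (8 + vent z.1 e ^ 2)

/-- the slack -/
noncomputable def slQ (a : Inp) (z : St) (e : ℕ) : ℚ :=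
  yQ z e - (wq a true e * gQ a z true e e + wq a false e * gQ a z false e e)

/-- the potential -/
noncomputable def thQ (a : Inp) (z : St) : ℚ :=
  ∑ e ∈ range (ne a), if vent z.2 e = 0 then 0 else 1 / slQ a z e

/-! ### the directions -/

/-- the edge of an index below `2 m` -/
def edg (a : Inp) (i : ℕ) : ℕ := if i < ne a then i else i - ne a

/-- first-order change of the slacks -/
noncomputable def CQ (a : Inp) (z : St) (e i : ℕ) : ℚ :=
  if i < ne a then
    (if e = i then 2 * (1 / 2 ^ 19) * vent z.2 e * vent z.1 e else 0) -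
      (hQ a z true e i - hQ a z false e i)
  else
    (if e = i - ne a then yQ z e else 0) -
      (hQ a z true e (i - ne a) + hQ a z false e (i - ne a)) * vent z.2 (i - ne a)

/-- the regularised form, padded by the identity on the inactive indices -/
noncomputable def NQ (a : Inp) (z : St) (i j : ℕ) : ℚ :=
  if vent z.2 (edg a i) = 0 ∨ vent z.2 (edg a j) = 0 then (if i = j then 1 else 0) else
    (if i = j then yQ z (edg a i) / slQ a z (edg a i) ^ 2 else 0) +
      ∑ e ∈ range (ne a), if vent z.2 e = 0 then 0 else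
        2 ^ 13 / slQ a z e ^ 3 * CQ a z e i * CQ a z e j

/-- column `j` of the inverse, on the active indices -/
noncomputable def nQ (a : Inp) (z : St) (j i : ℕ) : ℚ :=
  if vent z.2 (edg a i) = 0 then 0 else invF (2 * ne a) (NQ a z) i j

/-- the normalising factor of column `j` -/
noncomputable def cQ (a : Inp) (z : St) (j : ℕ) : ℚ :=
  tauQ a / 2 / ∑ i ∈ range (2 * ne a), |nQ a z j i|

/-- the rounded step in `x` -/
noncomputable def xiQ (a : Inp) (z : St) (j e : ℕ) : ℚ :=
  gridFloor (pQ a) (cQ a z j * nQ a z j e)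

/-- the rounded step in `r` -/
noncomputable def rhoQ (a : Inp) (z : St) (j e : ℕ) : ℚ :=
  gridFloor (pQ a) (vent z.2 e * (cQ a z j * nQ a z j (ne a + e)))

/-! ### one round -/

/-- lower one reserve -/
def cand1 (a : Inp) (z : St) (f : ℕ) : St :=
  (vtab (ne a) (vent z.1),
    vtab (ne a) fun e => vent z.2 e - if e = f ∧ vent z.2 e ≠ 0 then 1 / (pQ a : ℚ) else 0)

/-- move along column `j` with the sign `s` -/
noncomputable def cand2 (a : Inp) (z : St) (s : Bool) (j : ℕ) : St :=
  (vtab (ne a) fun e => vent z.1 e + sgQ s * xiQ a z j e,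
    vtab (ne a) fun e => vent z.2 e + sgQ s * rhoQ a z j e)

/-- all candidates -/
noncomputable def cands (a : Inp) (z : St) : List St :=
  (List.range (ne a)).map (cand1 a z) ++ ((List.range (2 * ne a)).map (cand2 a z true) ++
    (List.range (2 * ne a)).map (cand2 a z false))

/-- the first candidate that lowers the potential enough -/
noncomputable def best (a : Inp) (z : St) : St :=
  ((cands a z).find? fun c => decide (thQ a c ≤ thQ a z - 1 / (pQ a : ℚ) / 2)).getD z

/-- round all roundable edges -/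
def freeze (a : Inp) (z : St) : St :=
  (vtab (ne a) fun e => if 1 ≤ vent z.2 e + |vent z.1 e| then (if 0 ≤ vent z.1 e then 1 else -1)
      else vent z.1 e,
    vtab (ne a) fun e => if 1 ≤ vent z.2 e + |vent z.1 e| then 0 else vent z.2 e)

/-- one round -/
noncomputable def round (a : Inp) (z : St) : St := freeze a (best a z)

/-- the start -/
def start (a : Inp) : St := (vtab (ne a) fun _ => 0, vtab (ne a) fun _ => 1 / (par a : ℚ))

/-- the output -/
def signs (a : Inp) (z : St) : List Bool :=
  (List.range (ne a)).map fun e => decide (0 ≤ vent z.1 e)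

/-- the running times (proved in `KS/PT.lean`) -/
def PTStatement : Prop :=
  PT start ∧ PT (fun p : Inp × St => round p.1 p.2) ∧ PT (fun p : Inp × St => signs p.1 p.2) ∧
    PT pN ∧ PB pN ∧ PB ne ∧ PT pQ

end Crest.Agent.X37.KS
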