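import Crest.Agent.X37.KS.Gram

/-!
# Row 37, KS-A, real layer: trace inequalities for the columns of `(W + Cᵀ S C)⁻¹`
-/

namespace Crest.Agent.X37.KS

open Matrix

variable {J K : Type} [Fintype J] [DecidableEq J] [Fintype K]

/-- The matrix `diag w + Cᵀ diag S C`. -/
noncomputable def reg (w : J → ℝ) (S : K → ℝ) (C : Matrix K J ℝ) : Matrix J J ℝ :=
  fun i j => (if i = j then w i else 0) + ∑ k, S k * C k i * C k j

variable {w : J → ℝ} {S : K → ℝ} {C : Matrix K J ℝ}

lemma reg_mulVec (u : J → ℝ) (i : J) :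
    (reg w S C *ᵥ u) i = w i * u i + ∑ k, S k * C k i * (C *ᵥ u) k := by
  simp only [reg, mulVec, dotProduct, add_mul, Finset.sum_add_distrib, ite_mul, zero_mul,
    Finset.sum_ite_eq, Finset.mem_univ, if_true, Finset.sum_mul, Finset.mul_sum]
  congr 1
  rw [Finset.sum_comm]
  exact Finset.sum_congr rfl fun k _ => Finset.sum_congr rfl fun j _ => by ring

omit [DecidableEq J] in
lemma reg_aux (u : J → ℝ) :
    ∑ i, u i * ∑ k, S k * C k i * (C *ᵥ u) k = ∑ k, S k * (C *ᵥ u) k ^ 2 := by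
  simp only [Finset.mul_sum]
  rw [Finset.sum_comm]
  refine Finset.sum_congr rfl fun k _ => ?_
  have : (C *ᵥ u) k = ∑ i, C k i * u i := rfl
  rw [sq, ← mul_assoc, mul_comm (S k), mul_assoc]
  conv_rhs => rw [this, Finset.sum_mul]
  exact Finset.sum_congr rfl fun i _ => by rw [← this]; ring

lemma reg_form (u : J → ℝ) :
    u ⬝ᵥ (reg w S C *ᵥ u) = ∑ i, w i * u i ^ 2 + ∑ k, S k * (C *ᵥ u) k ^ 2 := by
  rw [← reg_aux, dotProduct, ← Finset.sum_add_distrib]
  exact Finset.sum_congr rfl fun i _ => by rw [reg_mulVec]; ring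

lemma reg_posDef (hw : ∀ i, 0 < w i) (hS : ∀ k, 0 ≤ S k) : (reg w S C).PosDef := by
  refine PosDef.of_dotProduct_mulVec_pos ?_ fun u hu => ?_
  · ext i j
    simp only [conjTranspose_apply, star_trivial, reg]
    congr 1
    · by_cases h : i = j
      · simp [h]
      · simp [h, Ne.symm h]
    · exact Finset.sum_congr rfl fun k _ => by ring
  · rw [star_trivial, reg_form]
    obtain ⟨i, hi⟩ := Function.ne_iff.1 hu
    have h1 : 0 < ∑ i, w i * u i ^ 2 :=
      Finset.sum_pos' (fun i _ => mul_nonneg (hw i).le (sq_nonneg _))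
        ⟨i, Finset.mem_univ _, mul_pos (hw i) (sq_pos_of_ne_zero hi)⟩
    have h2 : 0 ≤ ∑ k, S k * (C *ᵥ u) k ^ 2 :=
      Finset.sum_nonneg fun k _ => mul_nonneg (hS k) (sq_nonneg _)
    linarith

/-- The `j`-th column of the inverse. -/
noncomputable def rcol (w : J → ℝ) (S : K → ℝ) (C : Matrix K J ℝ) (j : J) : J → ℝ :=
  (reg w S C)⁻¹ *ᵥ Pi.single j 1

lemma rcol_apply (j i : J) : rcol w S C j i = (reg w S C)⁻¹ i j := by
  simp [rcol]

lemma rcol_unique (hw : ∀ i, 0 < w i) (hS : ∀ k, 0 ≤ S k) {j : J} {n : J → ℝ}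
    (h : reg w S C *ᵥ n = Pi.single j 1) : n = rcol w S C j := by
  rw [rcol, ← h, pd_inv_mul (reg_posDef hw hS)]

lemma sum_col_lin (hw : ∀ i, 0 < w i) (hS : ∀ k, 0 ≤ S k) (φ : J → ℝ) :
    ∑ j, w j * (φ ⬝ᵥ rcol w S C j) ^ 2 ≤ ∑ j, φ j ^ 2 / w j := by
  have hP := reg_posDef (C := C) hw hS
  set u := (reg w S C)⁻¹ *ᵥ φ with hu
  have h1 : ∀ j, φ ⬝ᵥ rcol w S C j = u j := fun j => by
    rw [rcol, psd_symm hP.inv.posSemidef, single_dotProduct, one_mul]
  have h2 : ∀ j, φ j = w j * u j + ∑ k, S k * C k j * (C *ᵥ u) k := fun j => by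
    rw [← reg_mulVec, hu, pd_mul_inv hP]
  have h3 : 0 ≤ ∑ j, u j * ∑ k, S k * C k j * (C *ᵥ u) k := by
    rw [reg_aux]; exact Finset.sum_nonneg fun k _ => mul_nonneg (hS k) (sq_nonneg _)
  calc ∑ j, w j * (φ ⬝ᵥ rcol w S C j) ^ 2
      ≤ ∑ j, w j * u j ^ 2 + 2 * ∑ j, u j * ∑ k, S k * C k j * (C *ᵥ u) k := by
        simp only [h1]; linarith
    _ ≤ _ := by
        rw [Finset.mul_sum, ← Finset.sum_add_distrib]
        refine Finset.sum_le_sum fun j _ => ?_
        rw [le_div_iff₀ (hw j), h2 j]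
        nlinarith only [sq_nonneg (∑ k, S k * C k j * (C *ᵥ u) k)]

lemma sum_col_form {d : Type} [Fintype d] (hw : ∀ i, 0 < w i) (hS : ∀ k, 0 ≤ S k)
    {G : Matrix d d ℝ} (hG : G.PosSemidef) (D : Matrix d J ℝ) :
    ∑ j, w j * ((D *ᵥ rcol w S C j) ⬝ᵥ (G *ᵥ (D *ᵥ rcol w S C j))) ≤
      ∑ j, ((D *ᵥ Pi.single j 1) ⬝ᵥ (G *ᵥ (D *ᵥ Pi.single j 1))) / w j := by
  obtain ⟨B, hB⟩ := psd_factor hG
  simp only [hB]
  simp only [mulVec_mulVec, Finset.mul_sum, Finset.sum_div]
  rw [Finset.sum_comm]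
  conv_rhs => rw [Finset.sum_comm]
  refine Finset.sum_le_sum fun k _ => ?_
  have := sum_col_lin (C := C) hw hS ((B * D) k)
  simpa [mulVec] using this

lemma sum_col_pen (hw : ∀ i, 0 < w i) (hS : ∀ k, 0 ≤ S k) :
    ∑ j, w j * ∑ k, S k * (C *ᵥ rcol w S C j) k ^ 2 ≤ Fintype.card J / 4 := by
  have hP := reg_posDef (C := C) hw hS
  have h : ∀ j ∈ Finset.univ, w j * ∑ k, S k * (C *ᵥ rcol w S C j) k ^ 2 ≤ 1 / 4 := fun j _ => by
    have h1 := reg_form (w := w) (S := S) (C := C) (rcol w S C j)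
    rw [show reg w S C *ᵥ rcol w S C j = Pi.single j 1 from pd_mul_inv hP _,
      dotProduct_single, mul_one] at h1
    have h2 : w j * rcol w S C j j ^ 2 ≤ ∑ i, w i * rcol w S C j i ^ 2 :=
      Finset.single_le_sum (f := fun i => w i * rcol w S C j i ^ 2)
        (fun i _ => mul_nonneg (hw i).le (sq_nonneg _)) (Finset.mem_univ j)
    have h3 : ∑ k, S k * (C *ᵥ rcol w S C j) k ^ 2 ≤
        rcol w S C j j - w j * rcol w S C j j ^ 2 := by linarith
    nlinarith only [mul_le_mul_of_nonneg_left h3 (hw j).le,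
      sq_nonneg (w j * rcol w S C j j - 1 / 2)]
  have h2 := Finset.sum_le_card_nsmul _ _ _ h
  rw [Finset.card_univ, nsmul_eq_mul] at h2
  linarith

lemma sum_col_norm (hw : ∀ i, 0 < w i) (hS : ∀ k, 0 ≤ S k) :
    (Fintype.card J : ℝ) - Fintype.card K ≤ ∑ j, w j * ∑ i, w i * rcol w S C j i ^ 2 := by
  classical
  have hP := reg_posDef (C := C) hw hS
  set X := (reg w S C)⁻¹ with hX
  have hXs : Xᵀ = X := by
    have := hP.inv.isHermitian
    rwa [IsHermitian, conjTranspose_eq_transpose_of_trivial] at this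
  have hXs' : ∀ i j, X i j = X j i := fun i j => by rw [← transpose_apply X, hXs]
  have hA : reg w S C = diagonal w + Cᵀ * (diagonal S * C) := by
    ext i j
    simp only [reg, Matrix.add_apply, diagonal_apply, mul_apply (M := Cᵀ), diagonal_mul, transpose_apply]
    congr 1
    exact Finset.sum_congr rfl fun k _ => by ring
  have h1 : X * diagonal w = 1 - (X * Cᵀ) * (diagonal S * C) := by
    have := nonsing_inv_mul _ ((isUnit_iff_isUnit_det _).1 hP.isUnit)
    rw [← hX, hA, Matrix.mul_add] at this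
    rw [← this, Matrix.mul_assoc]; abel
  have h2 : ∑ j, w j * ∑ i, w i * rcol w S C j i ^ 2 =
      trace ((X * diagonal w) * (X * diagonal w)) := by
    simp only [trace, diag, mul_apply (M := X * diagonal w), mul_diagonal, rcol_apply, ← hX,
      Finset.mul_sum]
    refine Finset.sum_congr rfl fun j _ => Finset.sum_congr rfl fun i _ => ?_
    rw [hXs' j i]; ring
  set T := (diagonal S * C) * (X * Cᵀ) with hT
  have h3 : trace ((X * diagonal w) * (X * diagonal w)) =
      Fintype.card J - 2 * trace T + trace (T * T) := by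
    rw [h1, Matrix.sub_mul, Matrix.mul_sub, Matrix.mul_sub, Matrix.one_mul, Matrix.one_mul,
      Matrix.mul_one, trace_sub, trace_sub, trace_sub, trace_one, trace_mul_comm (X * Cᵀ), ← hT,
      Matrix.mul_assoc (X * Cᵀ), trace_mul_comm (X * Cᵀ), hT]
    simp only [Matrix.mul_assoc]
    ring
  have hY : (C * (X * Cᵀ))ᵀ = C * (X * Cᵀ) := by
    rw [transpose_mul, transpose_mul, transpose_transpose, hXs, Matrix.mul_assoc]
  have hTe : ∀ k l, T k l = S k * (C * (X * Cᵀ)) k l := fun k l => by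
    rw [hT, Matrix.mul_assoc, diagonal_mul]
  have h4 : ∀ k ∈ Finset.univ, (-1 : ℝ) ≤ (T * T) k k - 2 * T k k := fun k _ => by
    have h5 : T k k * T k k ≤ (T * T) k k := by
      rw [mul_apply]
      refine Finset.single_le_sum (f := fun l => T k l * T l k) (fun l _ => ?_) (Finset.mem_univ k)
      have : (C * (X * Cᵀ)) l k = (C * (X * Cᵀ)) k l := by rw [← transpose_apply (C * _), hY]
      rw [hTe, hTe, this]
      nlinarith only [mul_nonneg (mul_nonneg (hS k) (hS l)) (sq_nonneg ((C * (X * Cᵀ)) k l))]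
    nlinarith only [h5, sq_nonneg (T k k - 1)]
  have h6 := Finset.card_nsmul_le_sum _ _ _ h4
  rw [Finset.card_univ, nsmul_eq_mul, Finset.sum_sub_distrib, ← Finset.mul_sum] at h6
  rw [h2, h3]
  simp only [trace, diag] at h6 ⊢
  linarith

end Crest.Agent.X37.KS
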