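import Crest.Agent.X37.KS.Step
import Crest.Agent.X37.KS.Trace

/-!
# Row 37, KS-A, real layer: some candidate step lowers the potential
-/

namespace Crest.Agent.X37.KS

open Matrix

section two
variable {ι d : Type} [Fintype ι] [Fintype d] [DecidableEq d]
variable {P : Bool → Matrix d d ℝ} {v : Bool → ι → d → ℝ} {x r ξ ρ : ι → ℝ} {M T τ γ : ℝ}

/-! ### Homogeneity, additivity, crude bounds -/

lemma aa_smul (Q : Matrix d d ℝ) (u : ι → d → ℝ) (c : ℝ) (δ : ι → ℝ) (e : ι) :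
    aa Q u (c • δ) e = c * aa Q u δ e := by
  simp only [aa, Pi.smul_apply, smul_eq_mul, Finset.mul_sum]
  exact Finset.sum_congr rfl fun f _ => by ring

omit [Fintype ι] in
lemma del_smul (c : ℝ) (ξ ρ : ι → ℝ) (s : Bool) : del (c • ξ) (c • ρ) s = c • del ξ ρ s := by
  ext e; simp only [del, Pi.smul_apply, smul_eq_mul]; ring

omit [Fintype ι] in
lemma del_add (ξ ρ ξ' ρ' : ι → ℝ) (s : Bool) :
    del (ξ + ξ') (ρ + ρ') s = del ξ ρ s + del ξ' ρ' s := by
  ext e; simp only [del, Pi.add_apply]; ring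

lemma ell_smul (c : ℝ) (ξ ρ : ι → ℝ) (e : ι) :
    ell P v x r (c • ξ) (c • ρ) e = c * ell P v x r ξ ρ e := by
  simp only [ell, aT, del_smul, aa_smul, Pi.smul_apply, smul_eq_mul]; ring

lemma ell_add (ξ ρ ξ' ρ' : ι → ℝ) (e : ι) :
    ell P v x r (ξ + ξ') (ρ + ρ') e = ell P v x r ξ ρ e + ell P v x r ξ' ρ' e := by
  simp only [ell, aT, del_add, aa_add, Pi.add_apply]; ring

lemma LL_smul (c : ℝ) (ξ ρ : ι → ℝ) : LL P v x r (c • ξ) (c • ρ) = c * LL P v x r ξ ρ := by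
  simp only [LL, ell_smul, Finset.mul_sum, mul_div_assoc]

lemma NN_smul (c : ℝ) (ξ ρ : ι → ℝ) : NN P v x r (c • ξ) (c • ρ) = c ^ 2 * NN P v x r ξ ρ := by
  simp only [NN, Pi.smul_apply, smul_eq_mul, Finset.mul_sum]
  exact Finset.sum_congr rfl fun e _ => by ring

lemma EV_smul (c : ℝ) (ξ ρ : ι → ℝ) : EV P v x r (c • ξ) (c • ρ) = c ^ 2 * EV P v x r ξ ρ := by
  simp only [EV, ZT, del_smul, ZZ_smul, ell_smul, Finset.mul_sum]
  exact Finset.sum_congr rfl fun e _ => by ring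

omit [Fintype ι] in
lemma Feas.one_le_ww (hF : Feas P v x r) (hU : ∀ e, r e + |x e| ≤ 1) (e : ι) :
    1 ≤ ww P v x r e := by
  have h0 := hF.sl_pos e
  rw [ww, le_div_iff₀ (by positivity), one_mul]
  nlinarith only [h0, hF.sl_le e, hF.yy_le_one hU e]

omit [Fintype ι] in
lemma Feas.ww_pos (hF : Feas P v x r) (e : ι) : 0 < ww P v x r e :=
  div_pos (hF.yy_pos e) (pow_pos (hF.sl_pos e) 2)

lemma Feas.NN_nonneg (hF : Feas P v x r) (ξ ρ : ι → ℝ) : 0 ≤ NN P v x r ξ ρ :=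
  Finset.sum_nonneg fun e _ => mul_nonneg (hF.ww_pos e).le (by positivity)

lemma Feas.NN_add (hF : Feas P v x r) (ξ ρ ξ' ρ' : ι → ℝ) :
    NN P v x r ξ ρ ≤ 2 * NN P v x r (ξ + ξ') (ρ + ρ') + 2 * NN P v x r ξ' ρ' := by
  simp only [NN, Finset.mul_sum, ← Finset.sum_add_distrib, Pi.add_apply, add_div]
  refine Finset.sum_le_sum fun e _ => ?_
  have h : ξ e ^ 2 + (ρ e / r e) ^ 2 ≤ 2 * ((ξ e + ξ' e) ^ 2 + (ρ e / r e + ρ' e / r e) ^ 2)
      + 2 * (ξ' e ^ 2 + (ρ' e / r e) ^ 2) := by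
    nlinarith only [sq_nonneg (ξ e + 2 * ξ' e), sq_nonneg (ρ e / r e + 2 * (ρ' e / r e))]
  nlinarith only [mul_le_mul_of_nonneg_left h (hF.ww_pos e).le]

lemma Feas.EV_add (hF : Feas P v x r) (ξ ρ ξ' ρ' : ι → ℝ) :
    EV P v x r (ξ + ξ') (ρ + ρ') ≤ 2 * EV P v x r ξ ρ + 2 * EV P v x r ξ' ρ' := by
  simp only [EV, Finset.mul_sum, ← Finset.sum_add_distrib]
  refine Finset.sum_le_sum fun e _ => ?_
  have h0 := hF.sl_pos e
  have h1 : ZT P v (ξ + ξ') (ρ + ρ') e ≤ 2 * ZT P v ξ ρ e + 2 * ZT P v ξ' ρ' e := by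
    simp only [ZT, del_add]
    linarith [ZZ_add_le (hF.pd true) (v true) (del ξ ρ true) (del ξ' ρ' true) e,
      ZZ_add_le (hF.pd false) (v false) (del ξ ρ false) (del ξ' ρ' false) e]
  have h2 : ell P v x r (ξ + ξ') (ρ + ρ') e ^ 2 ≤
      2 * ell P v x r ξ ρ e ^ 2 + 2 * ell P v x r ξ' ρ' e ^ 2 := by
    rw [ell_add]; nlinarith only [sq_nonneg (ell P v x r ξ ρ e - ell P v x r ξ' ρ' e)]
  have h3 := div_le_div_of_nonneg_right h1 (pow_pos h0 2).le
  have h4 := div_le_div_of_nonneg_right h2 (pow_pos h0 3).le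
  simp only [add_div, mul_div_assoc] at h3 h4
  linarith

lemma Feas.div_pow_le (hF : Feas P v x r) (hT : Theta P v x r ≤ T) (e : ι) {a b : ℝ}
    (hb : 0 ≤ b) (hab : a ≤ b) (k : ℕ) : a / sl P v x r e ^ k ≤ T ^ k * b := by
  rw [div_le_iff₀ (pow_pos (hF.sl_pos e) k)]
  have h := one_le_pow₀ (n := k) (hF.one_le_sl hT e)
  rw [mul_pow] at h
  nlinarith only [mul_le_mul_of_nonneg_left h hb, hab]

lemma Feas.NN_le (hF : Feas P v x r) (hU : ∀ e, r e + |x e| ≤ 1) (hT : Theta P v x r ≤ T)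
    (hM : (Fintype.card ι : ℝ) ≤ M) (hξ : ∀ e, |ξ e| ≤ τ) (hρ : ∀ e, |ρ e| ≤ τ * r e) :
    NN P v x r ξ ρ ≤ M * (T ^ 2 * (2 * τ ^ 2)) := by
  have h : ∀ e ∈ Finset.univ, ww P v x r e * (ξ e ^ 2 + (ρ e / r e) ^ 2) ≤
      T ^ 2 * (2 * τ ^ 2) := fun e _ => by
    have h1 : ξ e ^ 2 ≤ τ ^ 2 := sq_le_sq' (abs_le.1 (hξ e)).1 (abs_le.1 (hξ e)).2
    have h2 := abs_le.1 (hF.abs_div_le hρ e)
    have h3 : (ρ e / r e) ^ 2 ≤ τ ^ 2 := sq_le_sq' h2.1 h2.2
    have h4 : ww P v x r e ≤ T ^ 2 * 1 := hF.div_pow_le hT e zero_le_one (hF.yy_le_one hU e) 2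
    exact mul_le_mul (by linarith) (by linarith) (by positivity) (sq_nonneg _)
  have h2 := Finset.sum_le_card_nsmul _ _ _ h
  rw [Finset.card_univ, nsmul_eq_mul] at h2
  exact h2.trans (mul_le_mul_of_nonneg_right hM (by positivity))

lemma Feas.EV_le (hF : Feas P v x r) (hU : ∀ e, r e + |x e| ≤ 1) (hT : Theta P v x r ≤ T)
    (hT1 : 1 ≤ T) (hM : (Fintype.card ι : ℝ) ≤ M) (hξ : ∀ e, |ξ e| ≤ τ)
    (hρ : ∀ e, |ρ e| ≤ τ * r e) : EV P v x r ξ ρ ≤ M * (T ^ 3 * (20 * (M * τ) ^ 2)) := by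
  have h : ∀ e ∈ Finset.univ, ZT P v ξ ρ e / sl P v x r e ^ 2
      + ell P v x r ξ ρ e ^ 2 / sl P v x r e ^ 3 ≤ T ^ 3 * (20 * (M * τ) ^ 2) := fun e _ => by
    have hg1 : gg P v e ≤ 1 := (hF.gg_le e).trans (hF.yy_le_one hU e)
    have hZ := (hF.ZT_le hU hM hξ hρ e).trans (mul_le_of_le_one_left (sq_nonneg _) hg1)
    have hl := abs_le.1 (hF.ell_le hU hM hξ hρ e)
    have h1 := hF.div_pow_le hT e (sq_nonneg _) hZ 2
    have h2 := hF.div_pow_le hT e (sq_nonneg _) (sq_le_sq' hl.1 hl.2) 3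
    have h3 : T ^ 2 ≤ T ^ 3 := pow_le_pow_right₀ hT1 (by norm_num)
    nlinarith only [h1, h2, mul_le_mul_of_nonneg_right h3 (sq_nonneg (M * τ))]
  have h2 := Finset.sum_le_card_nsmul _ _ _ h
  rw [Finset.card_univ, nsmul_eq_mul] at h2
  exact h2.trans (mul_le_mul_of_nonneg_right hM (by positivity))

/-- The errors caused by a perturbation of size `γ`. -/
lemma Feas.err_le (hF : Feas P v x r) (hU : ∀ e, r e + |x e| ≤ 1) (hT : Theta P v x r ≤ T)
    (hT1 : 1 ≤ T) (hM1 : 1 ≤ M) (hM : (Fintype.card ι : ℝ) ≤ M) (hγ : 0 < γ)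
    (hγ1 : γ * (2 ^ 30 * M ^ 4 * T ^ 5) ≤ 1) (hξ : ∀ e, |ξ e| ≤ γ) (hρ : ∀ e, |ρ e| ≤ γ) :
    NN P v x r ξ ρ ≤ γ ∧ EV P v x r ξ ρ ≤ γ / 100 := by
  have hξ' : ∀ e, |ξ e| ≤ γ * T := fun e => (hξ e).trans (le_mul_of_one_le_right hγ.le hT1)
  have hρ' : ∀ e, |ρ e| ≤ γ * T * r e := fun e => (hρ e).trans (by
    rw [mul_assoc]; exact le_mul_of_one_le_right hγ.le (hF.one_le_r hT e))
  have h1 := hF.NN_le hU hT hM hξ' hρ'
  have h2 := hF.EV_le hU hT hT1 hM hξ' hρ'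
  have h3 : M * T ^ 4 ≤ M ^ 4 * T ^ 5 :=
    mul_le_mul (le_self_pow₀ hM1 (by norm_num)) (pow_le_pow_right₀ hT1 (by norm_num))
      (by positivity) (by positivity)
  have h4 : M ^ 3 * T ^ 5 ≤ M ^ 4 * T ^ 5 :=
    mul_le_mul_of_nonneg_right (pow_le_pow_right₀ hM1 (by norm_num)) (by positivity)
  have h5 := mul_le_mul_of_nonneg_left hγ1 hγ.le
  constructor
  · nlinarith only [h1, h5, mul_le_mul_of_nonneg_left h3 (sq_nonneg γ), hγ]
  · nlinarith only [h2, h5, mul_le_mul_of_nonneg_left h4 (sq_nonneg γ), hγ]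

/-! ### The directions -/

variable [DecidableEq ι]

/-- `(H π) f`. -/
noncomputable def Hp (P : Bool → Matrix d d ℝ) (v : Bool → ι → d → ℝ) (x r : ι → ℝ) (f : ι) : ℝ :=
  ∑ e, (gam (P true) (v true) e f ^ 2 + gam (P false) (v false) e f ^ 2) / sl P v x r e ^ 2

/-- The `ξ`-part of a direction. -/
def dξ (n : ι ⊕ ι → ℝ) : ι → ℝ := fun e => n (Sum.inl e)

/-- The `ρ`-part of a direction. -/
def dρ (r : ι → ℝ) (n : ι ⊕ ι → ℝ) : ι → ℝ := fun e => r e * n (Sum.inr e)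

lemma Feas.ell_eq (hF : Feas P v x r) (n : ι ⊕ ι → ℝ) (e : ι) :
    ell P v x r (dξ n) (dρ r n) e = (Cm P v x r *ᵥ n) e := by
  have hr := (hF.r_pos e).ne'
  simp only [ell, aT, aa, del, dξ, dρ, sg, mulVec, dotProduct, Fintype.sum_sum_type, Cm,
    Sum.elim_inl, Sum.elim_inr, sub_mul, ite_mul, zero_mul, Finset.sum_sub_distrib,
    Finset.sum_ite_eq, Finset.mem_univ, if_true, mul_div_cancel_left₀ _ hr, Bool.false_eq_true,
    if_false, add_mul, mul_add, Finset.sum_add_distrib, one_mul, neg_mul, mul_neg,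
    Finset.sum_neg_distrib, mul_assoc]
  ring

omit [DecidableEq ι] in
lemma Feas.NN_eq (hF : Feas P v x r) (n : ι ⊕ ι → ℝ) :
    NN P v x r (dξ n) (dρ r n) = ∑ i, Sum.elim (ww P v x r) (ww P v x r) i * n i ^ 2 := by
  simp only [NN, dξ, dρ, Fintype.sum_sum_type, Sum.elim_inl, Sum.elim_inr,
    ← Finset.sum_add_distrib]
  refine Finset.sum_congr rfl fun e _ => ?_
  rw [mul_div_cancel_left₀ _ (hF.r_pos e).ne', mul_add]

/-- The matrix of `n ↦ Δ(n) G v e`. -/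
noncomputable def Dm (P : Bool → Matrix d d ℝ) (v : Bool → ι → d → ℝ) (r : ι → ℝ) (s : Bool)
    (e : ι) : Matrix d (ι ⊕ ι) ℝ :=
  fun k => Sum.elim (fun f => sg s * gam (P s) (v s) e f * v s f k)
    (fun f => r f * gam (P s) (v s) e f * v s f k)

omit [DecidableEq ι] in
lemma zv_eq (n : ι ⊕ ι → ℝ) (s : Bool) (e : ι) :
    zv (P s) (v s) (del (dξ n) (dρ r n) s) e = Dm P v r s e *ᵥ n := by
  ext k
  simp only [zv, del, dξ, dρ, Finset.sum_apply, Pi.smul_apply, smul_eq_mul, mulVec, dotProduct,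
    Fintype.sum_sum_type, Dm, Sum.elim_inl, Sum.elim_inr, ← Finset.sum_add_distrib]
  exact Finset.sum_congr rfl fun f _ => by ring

omit [Fintype ι] in
lemma del_inl (f : ι) (s : Bool) :
    del (dξ (Pi.single (Sum.inl f) 1)) (dρ r (Pi.single (Sum.inl f) 1)) s = Pi.single f (sg s) := by
  ext e
  by_cases h : e = f <;> simp [del, dξ, dρ, h]

omit [Fintype ι] in
lemma del_inr (f : ι) (s : Bool) :
    del (dξ (Pi.single (Sum.inr f) 1)) (dρ r (Pi.single (Sum.inr f) 1)) s = Pi.single f (r f) := by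
  ext e
  by_cases h : e = f <;> simp [del, dξ, dρ, h]

lemma Feas.ZT_single (hF : Feas P v x r) (hU : ∀ e, r e + |x e| ≤ 1) (j : ι ⊕ ι) (e : ι) :
    ZT P v (dξ (Pi.single j 1)) (dρ r (Pi.single j 1)) e ≤ yy x r (Sum.elim id id j) *
      (gam (P true) (v true) e (Sum.elim id id j) ^ 2
        + gam (P false) (v false) e (Sum.elim id id j) ^ 2) := by
  have h : ∀ (s : Bool) (f : ι) (c : ℝ), c ^ 2 ≤ 1 → ZZ (P s) (v s) (Pi.single f c) e ≤
      yy x r f * gam (P s) (v s) e f ^ 2 := fun s f c hc => by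
    rw [ZZ_single, mul_comm (yy x r f)]
    exact mul_le_mul (mul_le_of_le_one_left (sq_nonneg _) hc)
      ((hF.gam_le_gg s f).trans (hF.gg_le f)) (gam_nonneg (hF.pd s) _ _) (sq_nonneg _)
  have hs : ∀ s, sg s ^ 2 ≤ 1 := fun s => by rw [← sq_abs, abs_sg]; norm_num
  have hr : ∀ f, r f ^ 2 ≤ 1 := fun f => pow_le_one₀ (hF.r_pos f).le (r_le_one hU f)
  rcases j with f | f
  · simp only [ZT, del_inl, Sum.elim_inl, id, mul_add]
    exact add_le_add (h _ _ _ (hs _)) (h _ _ _ (hs _))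
  · simp only [ZT, del_inr, Sum.elim_inr, id, mul_add]
    exact add_le_add (h _ _ _ (hr _)) (h _ _ _ (hr _))

lemma Nm_eq : Nm P v x r = reg (Sum.elim (ww P v x r) (ww P v x r))
    (fun e => 2 ^ 13 / sl P v x r e ^ 3) (Cm P v x r) := rfl

omit [Fintype ι] [DecidableEq ι] in
lemma Feas.ww2_pos (hF : Feas P v x r) (i : ι ⊕ ι) : 0 < Sum.elim (ww P v x r) (ww P v x r) i := by
  rcases i with e | e <;> exact hF.ww_pos e

omit [Fintype ι] [DecidableEq ι] in
lemma Feas.pen_nonneg (hF : Feas P v x r) (e : ι) : 0 ≤ 2 ^ 13 / sl P v x r e ^ 3 :=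
  div_nonneg (by norm_num) (pow_pos (hF.sl_pos e) 3).le

/-- Some column of the inverse has a small bad term. -/
lemma Feas.exists_col [Nonempty ι] (hF : Feas P v x r) (hU : ∀ e, r e + |x e| ≤ 1)
    (hH : ∀ f, r f * Hp P v x r f ≤ 2 * ww P v x r f) :
    ∃ j, ∀ n, Nm P v x r *ᵥ n = Pi.single j 1 →
      6720 * EV P v x r (dξ n) (dρ r n) ≤ NN P v x r (dξ n) (dρ r n) := by
  set w := Sum.elim (ww P v x r) (ww P v x r) with hw
  set S : ι → ℝ := fun e => 2 ^ 13 / sl P v x r e ^ 3 with hS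
  set col := rcol w S (Cm P v x r) with hcol
  have hw0 : ∀ i, 0 < w i := hF.ww2_pos
  have hS0 : ∀ e, 0 ≤ S e := hF.pen_nonneg
  have h1 := sum_col_norm (C := Cm P v x r) hw0 hS0
  have h2 := sum_col_pen (C := Cm P v x r) hw0 hS0
  rw [Fintype.card_sum, Nat.cast_add, ← hcol] at h1 h2
  have h3 : ∀ e, ∑ j, w j * ZT P v (dξ (col j)) (dρ r (col j)) e ≤
      ∑ j, ZT P v (dξ (Pi.single j 1)) (dρ r (Pi.single j 1)) e / w j := fun e => by
    simp only [ZT, ZZ, zv_eq, mul_add, add_div, Finset.sum_add_distrib]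
    exact add_le_add (sum_col_form hw0 hS0 (hF.pd true).inv.posSemidef _)
      (sum_col_form hw0 hS0 (hF.pd false).inv.posSemidef _)
  have h4 : ∀ j ∈ Finset.univ, (∑ e, ZT P v (dξ (Pi.single j 1)) (dρ r (Pi.single j 1)) e
      / sl P v x r e ^ 2) / w j ≤ 18 * kap := fun j _ => by
    rw [div_le_iff₀ (hw0 j)]
    have h5 : w j = ww P v x r (Sum.elim id id j) := by rcases j with f | f <;> rfl
    set f := Sum.elim id id j with hf
    have h6 : 0 ≤ Hp P v x r f := Finset.sum_nonneg fun e _ => by positivity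
    calc _ ≤ yy x r f * Hp P v x r f := by
          rw [Hp, Finset.mul_sum]
          refine Finset.sum_le_sum fun e _ => ?_
          rw [← mul_div_assoc]
          exact div_le_div_of_nonneg_right (hF.ZT_single hU j e) (sq_nonneg _)
      _ ≤ 9 * kap * r f * Hp P v x r f := mul_le_mul_of_nonneg_right (hF.yy_le f) h6
      _ ≤ _ := by
          rw [h5]; nlinarith only [mul_le_mul_of_nonneg_left (hH f) kap_pos.le]
  have h7 := Finset.sum_le_card_nsmul _ _ _ h4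
  rw [Finset.card_univ, nsmul_eq_mul, Fintype.card_sum, Nat.cast_add] at h7
  have h8 : ∑ j, w j * ∑ e, ZT P v (dξ (col j)) (dρ r (col j)) e / sl P v x r e ^ 2 ≤
      ((Fintype.card ι : ℝ) + Fintype.card ι) * (18 * kap) := by
    refine le_trans ?_ h7
    simp only [Finset.mul_sum, Finset.sum_div]
    rw [Finset.sum_comm]
    conv_rhs => rw [Finset.sum_comm]
    refine Finset.sum_le_sum fun e _ => ?_
    have := div_le_div_of_nonneg_right (h3 e) (sq_nonneg (sl P v x r e))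
    simp only [Finset.sum_div] at this
    simp only [← mul_div_assoc, div_right_comm _ (sl P v x r e ^ 2)]
    exact this
  have h9 : ∑ j, w j * (6720 * EV P v x r (dξ (col j)) (dρ r (col j))) ≤
      ∑ j, w j * NN P v x r (dξ (col j)) (dρ r (col j)) := by
    have e1 : ∑ j, w j * (6720 * EV P v x r (dξ (col j)) (dρ r (col j))) =
        6720 * (∑ j, w j * ∑ e, ZT P v (dξ (col j)) (dρ r (col j)) e / sl P v x r e ^ 2)
        + 6720 / 2 ^ 13 * ∑ j, w j * ∑ k, S k * (Cm P v x r *ᵥ col j) k ^ 2 := by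
      rw [Finset.mul_sum, Finset.mul_sum, ← Finset.sum_add_distrib]
      refine Finset.sum_congr rfl fun j _ => ?_
      have : ∑ k, S k * (Cm P v x r *ᵥ col j) k ^ 2 =
          2 ^ 13 * ∑ e, ell P v x r (dξ (col j)) (dρ r (col j)) e ^ 2 / sl P v x r e ^ 3 := by
        rw [Finset.mul_sum]
        exact Finset.sum_congr rfl fun e _ => by rw [hF.ell_eq, hS]; ring
      rw [this, EV, Finset.sum_add_distrib]; ring
    rw [e1]
    simp only [hF.NN_eq, ← hw]
    have h10 : (0 : ℝ) ≤ Fintype.card ι := Nat.cast_nonneg _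
    rw [kap] at h8
    linarith
  obtain ⟨j, -, hj⟩ := Finset.exists_le_of_sum_le Finset.univ_nonempty h9
  refine ⟨j, fun n hn => ?_⟩
  rw [rcol_unique hw0 hS0 hn]
  exact le_of_mul_le_mul_left hj (hw0 j)

/-- The linear term of the single-coordinate step. -/
lemma LL_single (γ : ℝ) (f : ι) :
    LL P v x r 0 (Pi.single f (-γ)) = γ * (Hp P v x r f - ww P v x r f / r f) := by
  have h1 : ∀ s e, aa (P s) (v s) (del 0 (Pi.single f (-γ)) s) e =
      -γ * gam (P s) (v s) e f ^ 2 := fun s e => by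
    rw [aa, Finset.sum_eq_single f]
    · simp [del, mul_comm]
    · intro g _ hg; simp [del, Pi.single_eq_of_ne hg]
    · simp
  have h2 : ∑ e, yy x r e * ((Pi.single f (-γ) : ι → ℝ) e / r e) / sl P v x r e ^ 2 =
      -γ * (ww P v x r f / r f) := by
    rw [Finset.sum_eq_single f]
    · rw [Pi.single_eq_same, ww]; ring
    · intro g _ hg; simp [Pi.single_eq_of_ne hg]
    · simp
  simp only [LL, ell, aT, h1, Pi.zero_apply, mul_zero, add_zero, sub_div, Finset.sum_sub_distrib,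
    h2, Hp, mul_sub, Finset.mul_sum]
  rw [sub_eq_iff_eq_add, neg_mul, sub_add_eq_add_sub, ← Finset.sum_add_distrib,
    Finset.sum_eq_zero (fun e _ => by ring), zero_sub]

end two

theorem nmPos : NmPos := by
  intro ι d _ _ _ _ P v x r T hF hT
  exact ⟨reg_posDef hF.ww2_pos hF.pen_nonneg, hF.one_le_r hT⟩

theorem existsDrop : ExistsDrop := by
  intro ι d _ _ _ _ hι P v x r M T τ γ hF hU hT hM hτ hγ hγ1
  obtain ⟨e₀⟩ := id hι
  have hT1 := hF.one_le_T hU hT e₀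
  have hM1 := one_le_M hM e₀
  have hγτ : γ * T ≤ τ / 2 := by
    have h1 : M * T ^ 2 ≤ M ^ 4 * T ^ 5 :=
      mul_le_mul (le_self_pow₀ hM1 (by norm_num)) (pow_le_pow_right₀ hT1 (by norm_num))
        (by positivity) (by positivity)
    have h2 : γ * T * (200 * M * T) ≤ τ / 2 * (200 * M * T) := by
      nlinarith only [mul_le_mul_of_nonneg_left h1 hγ.le, hγ1, hτ,
        mul_pos hγ (show 0 < M ^ 4 * T ^ 5 by positivity)]
    exact le_of_mul_le_mul_right h2 (by positivity)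
  have hγT : γ ≤ γ * T := le_mul_of_one_le_right hγ.le hT1
  have hγr : ∀ e, γ ≤ τ / 2 * r e := fun e =>
    (le_mul_of_one_le_right hγ.le (hF.one_le_r hT e)).trans (by
      rw [← mul_assoc]; exact mul_le_mul_of_nonneg_right hγτ (hF.r_pos e).le)
  by_cases hH : ∀ f, r f * Hp P v x r f ≤ 2 * ww P v x r f
  · right
    obtain ⟨j, hj⟩ := hF.exists_col hU hH
    refine ⟨j, fun n c ξ ρ hn hc1 hc2 hξ hρ => ?_⟩
    have h0 := mul_le_mul_of_nonneg_left (hj n hn) (sq_nonneg c)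
    rw [mul_left_comm, ← EV_smul, ← NN_smul] at h0
    have h1 : γ ≤ 3 / 560 * NN P v x r (c • dξ n) (c • dρ r n) := by
      obtain ⟨i, hi⟩ := hc2
      have h2 : c ^ 2 * n i ^ 2 ≤ NN P v x r (c • dξ n) (c • dρ r n) := by
        rw [NN_smul, hF.NN_eq]
        refine mul_le_mul_of_nonneg_left (le_trans ?_ (Finset.single_le_sum
          (f := fun i => Sum.elim (ww P v x r) (ww P v x r) i * n i ^ 2)
          (fun i _ => mul_nonneg (hF.ww2_pos i).le (sq_nonneg _)) (Finset.mem_univ i)))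
          (sq_nonneg c)
        refine le_mul_of_one_le_left (sq_nonneg _) ?_
        rcases i with e | e <;> exact hF.one_le_ww hU e
      rw [← mul_pow, ← sq_abs] at h2
      have h3 : 1 ≤ 400 * M ^ 2 * T * |c * n i| := by
        nlinarith only [mul_le_mul_of_nonneg_right hi (show 0 ≤ 100 * M * T by positivity), hτ]
      have h4 := one_le_pow₀ (n := 2) h3
      have h5 : M ^ 4 * T ^ 2 ≤ M ^ 4 * T ^ 5 :=
        mul_le_mul_of_nonneg_left (pow_le_pow_right₀ hT1 (by norm_num)) (by positivity)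
      have h6 : γ * (M ^ 4 * T ^ 2) ≤ 1 / 2 ^ 30 := by
        nlinarith only [mul_le_mul_of_nonneg_left h5 hγ.le, hγ1]
      nlinarith only [mul_le_mul_of_nonneg_left h4 hγ.le, h2, sq_nonneg |c * n i|,
        mul_le_mul_of_nonneg_right h6 (sq_nonneg |c * n i|)]
    have hξ1 : ∀ e, |(ξ - c • dξ n) e| ≤ γ := hξ
    have hρ1 : ∀ e, |(ρ - c • dρ r n) e| ≤ γ := fun e => by
      have := hρ e
      rwa [mul_left_comm] at this
    obtain ⟨h7, h8⟩ := hF.err_le hU hT hT1 hM1 hM hγ hγ1 hξ1 hρ1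
    have h9 := hF.NN_add (c • dξ n) (c • dρ r n) (ξ - c • dξ n) (ρ - c • dρ r n)
    have h10 := hF.EV_add (c • dξ n) (c • dρ r n) (ξ - c • dξ n) (ρ - c • dρ r n)
    rw [add_sub_cancel, add_sub_cancel] at h9 h10
    have hξ2 : ∀ e, |ξ e| ≤ τ := fun e => by
      have := abs_sub_abs_le_abs_sub (ξ e) (c * n (Sum.inl e))
      linarith [hξ e, hc1 (Sum.inl e)]
    have hρ2 : ∀ e, |ρ e| ≤ τ * r e := fun e => by
      have h11 := abs_sub_abs_le_abs_sub (ρ e) (r e * (c * n (Sum.inr e)))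
      rw [abs_mul (r e), abs_of_pos (hF.r_pos e)] at h11
      have h12 := mul_le_mul_of_nonneg_left (hc1 (Sum.inr e)) (hF.r_pos e).le
      linarith [hρ e, hγr e]
    have h13 := (step_main hF hU hT hM hτ.le hξ2 hρ2).2
    have h14 := (step_main (ξ := -ξ) (ρ := -ρ) hF hU hT hM hτ.le
      (fun e => by simpa using hξ2 e) (fun e => by simpa using hρ2 e)).2
    have e1 : LL P v x r (-ξ) (-ρ) = -LL P v x r ξ ρ := by
      simpa using LL_smul (P := P) (v := v) (x := x) (r := r) (-1) ξ ρ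
    have e2 : NN P v x r (-ξ) (-ρ) = NN P v x r ξ ρ := by
      simpa using NN_smul (P := P) (v := v) (x := x) (r := r) (-1) ξ ρ
    have e3 : EV P v x r (-ξ) (-ρ) = EV P v x r ξ ρ := by
      simpa using EV_smul (P := P) (v := v) (x := x) (r := r) (-1) ξ ρ
    rw [e1, e2, e3] at h14
    rcases le_total 0 (LL P v x r ξ ρ) with h | h
    · left; linarith
    · right; linarith
  · left
    obtain ⟨f, hf⟩ := not_forall.1 hH
    refine ⟨f, ?_⟩
    have hr := hF.r_pos f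
    have hρ : ∀ e, |(Pi.single f (-γ) : ι → ℝ) e| ≤ γ := fun e => by
      by_cases h : e = f
      · simp [h, abs_of_pos hγ]
      · simp [h, hγ.le]
    have hξ : ∀ e, |(0 : ι → ℝ) e| ≤ γ := fun e => by simp [hγ.le]
    obtain ⟨-, h8⟩ := hF.err_le hU hT hT1 hM1 hM hγ hγ1 hξ hρ
    have h13 := (step_main hF hU hT hM hτ.le (fun e => (hξ e).trans (by linarith))
      (fun e => (hρ e).trans (by linarith [hγr e]))).2
    have h14 := hF.NN_nonneg 0 (Pi.single f (-γ))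
    have h15 : 1 ≤ Hp P v x r f - ww P v x r f / r f := by
      have h16 : ww P v x r f / r f * r f = ww P v x r f := div_mul_cancel₀ _ hr.ne'
      have h17 : 1 * r f ≤ (Hp P v x r f - ww P v x r f / r f) * r f := by
        rw [sub_mul, h16]
        linarith [not_le.1 hf, hF.one_le_ww hU f, r_le_one hU f]
      exact le_of_mul_le_mul_right h17 hr
    rw [LL_single] at h13
    nlinarith only [h13, h14, h8, hγ, mul_le_mul_of_nonneg_left h15 hγ.le]

end Crest.Agent.X37.KS
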