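import Crest.Agent.X37.KS.OfDrop
import Crest.Agent.X37.KS.Dir

/-!
# Row 37, KS-A: the unconditional statement
-/

set_option autoImplicit false

namespace Crest.Agent.X37.KS

theorem ksStatement : KSStatement := ks_of_drop nmPos existsDrop

end Crest.Agent.X37.KS
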