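import Mathlib

/-!
# Row 37, KS-A, real layer: definitions and the two interface statements

All edges of `ι` are active.  `P s` is the current barrier matrix of block `s`
(frozen edges are absorbed in it), `v s e` the vector of edge `e` in block `s`,
`(x, r)` the state; the coefficient of `v s e (v s e)ᵀ` is `sg s * x e + r e`.
-/

namespace Crest.Agent.X37.KS

open Matrix

/-- The constant `κ = 2⁻¹⁹`. -/
noncomputable def kap : ℝ := 1 / 2 ^ 19

/-- The sign of a block. -/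
def sg (s : Bool) : ℝ := if s then 1 else -1

section one
variable {ι d : Type} [Fintype ι] [Fintype d] [DecidableEq d]

/-- Gram matrix of the vectors in the metric `P⁻¹`. -/
noncomputable def gam (P : Matrix d d ℝ) (v : ι → d → ℝ) (e f : ι) : ℝ :=
  v e ⬝ᵥ (P⁻¹ *ᵥ v f)

/-- `P - ∑ δ e • v e (v e)ᵀ`. -/
noncomputable def upd (P : Matrix d d ℝ) (v : ι → d → ℝ) (δ : ι → ℝ) : Matrix d d ℝ :=
  P - ∑ e, δ e • vecMulVec (v e) (v e)

end one

section two
variable {ι d : Type} [Fintype ι] [DecidableEq ι] [Fintype d] [DecidableEq d]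

/-- The reserve `y = κ r (8 + x²)`. -/
noncomputable def yy (x r : ι → ℝ) (e : ι) : ℝ := kap * r e * (8 + x e ^ 2)

/-- Sum of the two leverages. -/
noncomputable def gg (P : Bool → Matrix d d ℝ) (v : Bool → ι → d → ℝ) (e : ι) : ℝ :=
  gam (P true) (v true) e e + gam (P false) (v false) e e

/-- The slack. -/
noncomputable def sl (P : Bool → Matrix d d ℝ) (v : Bool → ι → d → ℝ) (x r : ι → ℝ) (e : ι) : ℝ :=
  yy x r e - gg P v e

/-- The potential. -/
noncomputable def Theta (P : Bool → Matrix d d ℝ) (v : Bool → ι → d → ℝ) (x r : ι → ℝ) : ℝ :=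
  ∑ e, 1 / sl P v x r e

/-- The barrier matrices after the step `(ξ, ρ)`. -/
noncomputable def stepP (P : Bool → Matrix d d ℝ) (v : Bool → ι → d → ℝ) (ξ ρ : ι → ℝ) :
    Bool → Matrix d d ℝ :=
  fun s => upd (P s) (v s) (fun e => sg s * ξ e + ρ e)

/-- The potential after the step `(ξ, ρ)`. -/
noncomputable def ThetaStep (P : Bool → Matrix d d ℝ) (v : Bool → ι → d → ℝ) (x r ξ ρ : ι → ℝ) :
    ℝ :=
  Theta (stepP P v ξ ρ) v (x + ξ) (r + ρ)

/-- Feasibility of a state. -/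
structure Feas (P : Bool → Matrix d d ℝ) (v : Bool → ι → d → ℝ) (x r : ι → ℝ) : Prop where
  pd : ∀ s, (P s).PosDef
  sl_pos : ∀ e, 0 < sl P v x r e
  r_pos : ∀ e, 0 < r e
  x_le : ∀ e, |x e| ≤ 1

/-- The weight `w = y / sl²`. -/
noncomputable def ww (P : Bool → Matrix d d ℝ) (v : Bool → ι → d → ℝ) (x r : ι → ℝ) (e : ι) : ℝ :=
  yy x r e / sl P v x r e ^ 2

/-- First-order change of the slacks in the coordinates `(ξ, σ)`, `ρ = r σ`. -/
noncomputable def Cm (P : Bool → Matrix d d ℝ) (v : Bool → ι → d → ℝ) (x r : ι → ℝ) :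
    Matrix ι (ι ⊕ ι) ℝ :=
  fun e => Sum.elim
    (fun f => (if e = f then 2 * kap * r e * x e else 0)
      - (gam (P true) (v true) e f ^ 2 - gam (P false) (v false) e f ^ 2))
    (fun f => (if e = f then yy x r e else 0)
      - (gam (P true) (v true) e f ^ 2 + gam (P false) (v false) e f ^ 2) * r f)

/-- The regularised form `W + 2¹³ Cᵀ diag(sl⁻³) C`; the directions are the columns of its
inverse. -/
noncomputable def Nm (P : Bool → Matrix d d ℝ) (v : Bool → ι → d → ℝ) (x r : ι → ℝ) :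
    Matrix (ι ⊕ ι) (ι ⊕ ι) ℝ :=
  fun i j => (if i = j then Sum.elim (ww P v x r) (ww P v x r) i else 0)
    + ∑ e, 2 ^ 13 / sl P v x r e ^ 3 * Cm P v x r e i * Cm P v x r e j

end two

/-- Every small step from an unroundable feasible state is feasible. -/
def StepFeas : Prop :=
  ∀ (ι d : Type) [Fintype ι] [DecidableEq ι] [Fintype d] [DecidableEq d]
    (P : Bool → Matrix d d ℝ) (v : Bool → ι → d → ℝ) (x r ξ ρ : ι → ℝ) (M T τ : ℝ),
    Feas P v x r → (∀ e, r e + |x e| ≤ 1) → Theta P v x r ≤ T → (Fintype.card ι : ℝ) ≤ M →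
    τ * (100 * M * T) ≤ 1 → (∀ e, |ξ e| ≤ τ) → (∀ e, |ρ e| ≤ τ * r e) →
    Feas (stepP P v ξ ρ) v (x + ξ) (r + ρ)

/-- `Nm` is positive definite (so the directions exist and are nonzero), and `1 / T ≤ r e`
(so that rounding errors `γ` are small relative to `τ * r e`). -/
def NmPos : Prop :=
  ∀ (ι d : Type) [Fintype ι] [DecidableEq ι] [Fintype d] [DecidableEq d]
    (P : Bool → Matrix d d ℝ) (v : Bool → ι → d → ℝ) (x r : ι → ℝ) (T : ℝ),
    Feas P v x r → Theta P v x r ≤ T → (Nm P v x r).PosDef ∧ ∀ e, 1 ≤ T * r e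

/-- Some candidate step lowers the potential by `γ / 2`. -/
def ExistsDrop : Prop :=
  ∀ (ι d : Type) [Fintype ι] [DecidableEq ι] [Fintype d] [DecidableEq d] [Nonempty ι]
    (P : Bool → Matrix d d ℝ) (v : Bool → ι → d → ℝ) (x r : ι → ℝ) (M T τ γ : ℝ),
    Feas P v x r → (∀ e, r e + |x e| ≤ 1) → Theta P v x r ≤ T → (Fintype.card ι : ℝ) ≤ M →
    τ * (100 * M * T) = 1 → 0 < γ → γ * (2 ^ 30 * M ^ 4 * T ^ 5) ≤ 1 →
    (∃ f, ThetaStep P v x r 0 (Pi.single f (-γ)) ≤ Theta P v x r - γ / 2) ∨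
    (∃ j, ∀ (n : ι ⊕ ι → ℝ) (c : ℝ) (ξ ρ : ι → ℝ), Nm P v x r *ᵥ n = Pi.single j 1 →
      (∀ i, |c * n i| ≤ τ / 2) → (∃ i, τ ≤ 4 * M * |c * n i|) →
      (∀ e, |ξ e - c * n (Sum.inl e)| ≤ γ) → (∀ e, |ρ e - r e * (c * n (Sum.inr e))| ≤ γ) →
      ThetaStep P v x r ξ ρ ≤ Theta P v x r - γ / 2 ∨
        ThetaStep P v x r (-ξ) (-ρ) ≤ Theta P v x r - γ / 2)

end Crest.Agent.X37.KS
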