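import Crest.Agent.X37.KS.Alg
import Crest.Agent.X37.KS.Defs
import Crest.Agent.X37.Inner.Res

/-!
# Row 37, KS-A: the rational quantities of the algorithm are the real quantities of the analysis
-/

set_option autoImplicit false

namespace Crest.Agent.X37.KS.Lp

open Crest.Agent.Lib.PT Crest.Agent.X37.PT Matrix Finset

/-- the edges with a property -/
abbrev Sub (a : Inp) (p : ℕ → Prop) : Type := {e : Fin (ne a) // p e}

/-- the activity predicate of a state -/
abbrev act (z : St) : ℕ → Prop := fun e => vent z.2 e ≠ 0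

/-- the real barrier matrix -/
def PR (a : Inp) (z : St) (s : Bool) : Matrix (Fin (dim a)) (Fin (dim a)) ℝ :=
  matR (dim a) (PQ a z s)

/-- the weighted real vectors -/
noncomputable def vR (a : Inp) (s : Bool) (e : ℕ) : Fin (dim a) → ℝ :=
  √(wq a s e : ℝ) • bR a s e

/-- the weighted real vectors of a set of edges -/
noncomputable def vA (a : Inp) (p : ℕ → Prop) (s : Bool) (e : Sub a p) : Fin (dim a) → ℝ :=
  vR a s e.1

/-- a list read on a set of edges -/
def rd (a : Inp) (p : ℕ → Prop) (x : List ℚ) (e : Sub a p) : ℝ := (vent x e.1 : ℝ)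

/-- the position of an index of the regularised form -/
def pos (a : Inp) (p : ℕ → Prop) : Sub a p ⊕ Sub a p → ℕ :=
  Sum.elim (fun e => e.1) (fun e => ne a + e.1)

variable {a : Inp} {z : St} {p : ℕ → Prop}

@[simp] theorem cast_sgQ (s : Bool) : ((sgQ s : ℚ) : ℝ) = sg s := by
  cases s <;> simp [sgQ, sg]

theorem sum_sub [DecidablePred p] {β : Type} [AddCommMonoid β] (f : ℕ → β) :
    ∑ e : Sub a p, f e.1 = ∑ e ∈ range (ne a), if p e then f e else 0 := by
  rw [Finset.sum_range, ← Finset.sum_filter]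
  exact (Finset.sum_subtype (univ.filter fun e : Fin (ne a) => p e) (by simp)
    (fun e : Fin (ne a) => f e)).symm

theorem sum_act {β : Type} [AddCommMonoid β] (f : ℕ → β) :
    ∑ e : Sub a (act z), f e.1 = ∑ e ∈ range (ne a), if vent z.2 e = 0 then 0 else f e := by
  rw [sum_sub (p := act z) f]
  exact Finset.sum_congr rfl fun e _ => by by_cases h : vent z.2 e = 0 <;> simp [h]

theorem vecMulVec_vR {s : Bool} {e : ℕ} (hw : 0 ≤ wq a s e) (i j : Fin (dim a)) :
    vecMulVec (vR a s e) (vR a s e) i j = ((wq a s e * bq a s e i * bq a s e j : ℚ) : ℝ) := by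
  have h : (0 : ℝ) ≤ (wq a s e : ℝ) := by exact_mod_cast hw
  have h2 := Real.mul_self_sqrt h
  simp only [vecMulVec_apply, vR, bR, Pi.smul_apply, smul_eq_mul]
  push_cast
  linear_combination ((bq a s e i : ℝ) * (bq a s e j : ℝ)) * h2

theorem PR_apply (s : Bool) (i j : Fin (dim a)) :
    PR a z s i j = 2 / (par a : ℝ) * MR a s i j - ∑ e ∈ range (ne a),
      (sg s * vent z.1 e + vent z.2 e) * ((wq a s e : ℝ) * bR a s e i * bR a s e j) := by
  simp only [PR, MR, bR, matR_apply, PQ]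
  push_cast
  simp only [cast_sgQ]

theorem PR_eq (s : Bool) :
    PR a z s = (2 / (par a : ℝ)) • MR a s - ∑ e ∈ range (ne a),
      ((sg s * vent z.1 e + vent z.2 e) * (wq a s e : ℝ)) • vecMulVec (bR a s e) (bR a s e) := by
  ext i j
  rw [PR_apply]
  simp only [Matrix.sub_apply, Matrix.smul_apply, smul_eq_mul, Matrix.sum_apply, vecMulVec_apply]
  congr 1
  exact Finset.sum_congr rfl fun e _ => by ring

theorem qf_PR (s : Bool) (y : Fin (dim a) → ℝ) :
    Inner.qf (PR a z s) y = 2 / (par a : ℝ) * (y ⬝ᵥ MR a s *ᵥ y) - ∑ e ∈ range (ne a),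
      (sg s * vent z.1 e + vent z.2 e) * ((wq a s e : ℝ) * (bR a s e ⬝ᵥ y) ^ 2) := by
  have h : ∀ M N : Matrix (Fin (dim a)) (Fin (dim a)) ℝ,
      Inner.qf (M - N) y = Inner.qf M y - Inner.qf N y := fun M N => by
    simp [Inner.qf, sub_mulVec, dotProduct_sub]
  rw [PR_eq, h, Inner.qf_smul, Inner.qf_sum]
  congr 1
  exact Finset.sum_congr rfl fun e _ => by rw [Inner.qf_smul, Inner.qf_vecMulVec]; ring

theorem PR_symm {s : Bool} (hM : (MR a s).PosDef) : (PR a z s)ᵀ = PR a z s := by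
  have h := Inner.symm_of_posDef hM
  ext i j
  rw [transpose_apply, PR_apply, PR_apply]
  have h1 : MR a s j i = MR a s i j := by rw [← transpose_apply (MR a s) i j, h]
  rw [h1]
  congr 1
  exact Finset.sum_congr rfl fun e _ => by ring

theorem cast_gQ (s : Bool) (e f : ℕ) :
    ((gQ a z s e f : ℚ) : ℝ) = Inner.ip (PR a z s) (bR a s e) (bR a s f) := by
  simp only [gQ, Inner.ip, dotProduct, mulVec, bR, Finset.sum_range]
  push_cast
  simp only [cast_invF, PR]

theorem gam_eq (s : Bool) (e f : Sub a p) :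
    gam (PR a z s) (vA a p s) e f =
      √(wq a s e.1 : ℝ) * √(wq a s f.1 : ℝ) * (gQ a z s e.1 f.1 : ℝ) := by
  rw [cast_gQ]
  simp only [gam, vA, vR, Inner.ip, mulVec_smul, dotProduct_smul, smul_dotProduct, smul_eq_mul]
  ring

theorem gam_self (hV : Valid a) (s : Bool) (e : Sub a p) :
    gam (PR a z s) (vA a p s) e e = ((wq a s e.1 * gQ a z s e.1 e.1 : ℚ) : ℝ) := by
  have h : (0 : ℝ) ≤ (wq a s e.1 : ℝ) := by exact_mod_cast hV.w_nonneg s _ e.1.2
  rw [gam_eq, Real.mul_self_sqrt h]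
  push_cast
  rfl

theorem gam_sq (hV : Valid a) (s : Bool) (e f : Sub a p) :
    gam (PR a z s) (vA a p s) e f ^ 2 = ((hQ a z s e.1 f.1 : ℚ) : ℝ) := by
  have h : (0 : ℝ) ≤ (wq a s e.1 : ℝ) := by exact_mod_cast hV.w_nonneg s _ e.1.2
  have h' : (0 : ℝ) ≤ (wq a s f.1 : ℝ) := by exact_mod_cast hV.w_nonneg s _ f.1.2
  rw [gam_eq, mul_pow, mul_pow, Real.sq_sqrt h, Real.sq_sqrt h', hQ]
  push_cast
  rfl

theorem yy_eq (e : Sub a p) : yy (rd a p z.1) (rd a p z.2) e = ((yQ z e.1 : ℚ) : ℝ) := by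
  simp only [yy, rd, yQ, kap]
  push_cast
  rfl

theorem sl_eq (hV : Valid a) (e : Sub a p) :
    sl (PR a z) (vA a p) (rd a p z.1) (rd a p z.2) e = ((slQ a z e.1 : ℚ) : ℝ) := by
  simp only [sl, gg, yy_eq, gam_self hV, slQ]
  push_cast
  rfl

/-- the potential, on any description of the active set -/
theorem theta_eq [DecidablePred p] (hV : Valid a) (hp : ∀ e < ne a, p e ↔ vent z.2 e ≠ 0) :
    Theta (PR a z) (vA a p) (rd a p z.1) (rd a p z.2) = ((thQ a z : ℚ) : ℝ) := by
  simp only [Theta, sl_eq hV, thQ]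
  rw [sum_sub (p := p) (fun e => 1 / ((slQ a z e : ℚ) : ℝ))]
  push_cast
  refine Finset.sum_congr rfl fun e he => ?_
  by_cases h : vent z.2 e = 0
  · rw [if_pos h, if_neg (fun h' => (hp e (mem_range.1 he)).1 h' h)]
    simp
  · rw [if_neg h, if_pos ((hp e (mem_range.1 he)).2 h)]
    simp

theorem edg_inl (e : Sub a p) : edg a (pos a p (.inl e)) = e.1 := if_pos e.1.2

theorem edg_inr (e : Sub a p) : edg a (pos a p (.inr e)) = e.1 := by
  simp [edg, pos]

theorem pos_lt (i : Sub a p ⊕ Sub a p) : pos a p i < 2 * ne a := by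
  rcases i with e | e
  · have := e.1.2
    simp only [pos, Sum.elim_inl]
    omega
  · have := e.1.2
    simp only [pos, Sum.elim_inr]
    omega

theorem pos_inj {i j : Sub a p ⊕ Sub a p} : pos a p i = pos a p j ↔ i = j := by
  refine ⟨fun h => ?_, fun h => h ▸ rfl⟩
  rcases i with e | e <;> rcases j with f | f <;>
    simp only [pos, Sum.elim_inl, Sum.elim_inr] at h
  · exact congrArg _ (Subtype.ext (Fin.ext h))
  · have := e.1.2; omega
  · have := f.1.2; omega
  · exact congrArg _ (Subtype.ext (Fin.ext (by omega)))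

theorem p_edg_pos (i : Sub a p ⊕ Sub a p) : p (edg a (pos a p i)) := by
  rcases i with e | e
  · rw [edg_inl]; exact e.2
  · rw [edg_inr]; exact e.2

theorem exists_pos {k : ℕ} (hk : k < 2 * ne a) (h : p (edg a k)) : ∃ i, pos a p i = k := by
  unfold edg at h
  split_ifs at h with h1
  · exact ⟨.inl ⟨⟨k, h1⟩, h⟩, rfl⟩
  · refine ⟨.inr ⟨⟨k - ne a, by omega⟩, h⟩, ?_⟩
    simp only [pos, Sum.elim_inr]
    omega

theorem sum_pos_eq [DecidablePred p] {β : Type} [AddCommMonoid β] (f : ℕ → β)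
    (hf : ∀ k < 2 * ne a, ¬ p (edg a k) → f k = 0) :
    ∑ i : Sub a p ⊕ Sub a p, f (pos a p i) = ∑ k ∈ range (2 * ne a), f k := by
  refine Finset.sum_bij_ne_zero (fun i _ _ => pos a p i) (fun i _ _ => mem_range.2 (pos_lt i))
    (fun i _ _ j _ _ h => pos_inj.1 h) (fun k hk h0 => ?_) (fun _ _ _ => rfl)
  obtain ⟨i, hi⟩ := exists_pos (mem_range.1 hk) (by_contra fun h => h0 (hf k (mem_range.1 hk) h))
  exact ⟨i, mem_univ _, hi ▸ h0, hi⟩

theorem sub_ext_iff (e f : Sub a p) : e = f ↔ (e.1 : ℕ) = f.1 :=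
  ⟨fun h => h ▸ rfl, fun h => Subtype.ext (Fin.ext h)⟩

theorem Cm_eq [DecidablePred p] (hV : Valid a) (e : Sub a p) (i : Sub a p ⊕ Sub a p) :
    Cm (PR a z) (vA a p) (rd a p z.1) (rd a p z.2) e i = ((CQ a z e.1 (pos a p i) : ℚ) : ℝ) := by
  rcases i with f | f
  · have h : (f.1 : ℕ) < ne a := f.1.2
    simp only [Cm, Sum.elim_inl, gam_sq hV, CQ, pos, if_pos h, sub_ext_iff, rd, kap]
    split_ifs <;> push_cast <;> ring
  · have h : ¬ (ne a + f.1 < ne a) := by omega
    simp only [Cm, Sum.elim_inr, gam_sq hV, CQ, pos, if_neg h, sub_ext_iff, yy_eq,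
      Nat.add_sub_cancel_left]
    split_ifs <;> push_cast <;> rfl

theorem Nm_eq (hV : Valid a) (i j : Sub a (act z) ⊕ Sub a (act z)) :
    Nm (PR a z) (vA a (act z)) (rd a (act z) z.1) (rd a (act z) z.2) i j =
      ((NQ a z (pos a (act z) i) (pos a (act z) j) : ℚ) : ℝ) := by
  have h : ¬ (vent z.2 (edg a (pos a (act z) i)) = 0 ∨ vent z.2 (edg a (pos a (act z) j)) = 0) :=
    not_or.2 ⟨p_edg_pos (p := act z) i, p_edg_pos (p := act z) j⟩
  simp only [Nm, NQ, if_neg h, pos_inj, Cm_eq hV, sl_eq hV]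
  rw [sum_act (fun e => 2 ^ 13 / ((slQ a z e : ℚ) : ℝ) ^ 3 * ((CQ a z e (pos a (act z) i) : ℚ) : ℝ) *
    ((CQ a z e (pos a (act z) j) : ℚ) : ℝ))]
  push_cast
  congr 1
  · split_ifs
    · rcases i with e | e
      · simp only [Sum.elim_inl, ww, edg_inl, yy_eq, sl_eq hV]
        push_cast
        rfl
      · simp only [Sum.elim_inr, ww, edg_inr, yy_eq, sl_eq hV]
        push_cast
        rfl
    · simp
  · refine Finset.sum_congr rfl fun e _ => ?_
    split_ifs <;> push_cast <;> rfl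

/-- the padded form is invertible -/
theorem isUnit_NQ (hV : Valid a)
    (hN : (Nm (PR a z) (vA a (act z)) (rd a (act z) z.1) (rd a (act z) z.2)).PosDef) :
    IsUnit (matR (2 * ne a) (NQ a z)).det := by
  rw [isUnit_iff_ne_zero]
  intro h0
  obtain ⟨u, hu0, hu⟩ := Matrix.exists_mulVec_eq_zero_iff.2 h0
  let U : ℕ → ℝ := fun k => if h : k < 2 * ne a then u ⟨k, h⟩ else 0
  have hU : ∀ k : Fin (2 * ne a), U k = u k := fun k => dif_pos k.2
  have row : ∀ k < 2 * ne a, ∑ l ∈ range (2 * ne a), ((NQ a z k l : ℚ) : ℝ) * U l = 0 := by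
    intro k hk
    have := congrFun hu ⟨k, hk⟩
    simp only [mulVec, dotProduct, matR_apply, Pi.zero_apply] at this
    rw [Finset.sum_range]
    simpa only [hU] using this
  have h1 : ∀ k < 2 * ne a, vent z.2 (edg a k) = 0 → U k = 0 := by
    intro k hk h
    have := row k hk
    simp only [NQ, h, true_or, if_true] at this
    rw [Finset.sum_eq_single k (fun l _ hl => by simp [Ne.symm hl])
      (fun h => absurd (mem_range.2 hk) h)] at this
    simpa using this
  have h2 : Nm (PR a z) (vA a (act z)) (rd a (act z) z.1) (rd a (act z) z.2) *ᵥ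
      (fun i => U (pos a (act z) i)) = 0 := by
    funext i
    simp only [mulVec, dotProduct, Nm_eq hV, Pi.zero_apply]
    rw [sum_pos_eq (p := act z) (fun l => ((NQ a z (pos a (act z) i) l : ℚ) : ℝ) * U l)
      (fun k hk h => by rw [h1 k hk (not_not.1 h), mul_zero])]
    exact row _ (pos_lt i)
  have h3 : (fun i => U (pos a (act z) i)) = 0 := by
    by_contra hne
    have := Inner.qf_pos hN hne
    rw [Inner.qf, h2, dotProduct_zero] at this
    exact lt_irrefl _ this
  refine hu0 (funext fun k => ?_)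
  rw [← hU]
  by_cases h : vent z.2 (edg a k) = 0
  · exact h1 k k.2 h
  · obtain ⟨i, hi⟩ := exists_pos (p := act z) k.2 h
    rw [← hi]
    exact congrFun h3 i

/-- the columns of the padded inverse are the columns of the inverse -/
theorem Nm_mulVec_nQ (hV : Valid a)
    (hN : (Nm (PR a z) (vA a (act z)) (rd a (act z) z.1) (rd a (act z) z.2)).PosDef)
    (j : Sub a (act z) ⊕ Sub a (act z)) :
    Nm (PR a z) (vA a (act z)) (rd a (act z) z.1) (rd a (act z) z.2) *ᵥ
      (fun i => ((nQ a z (pos a (act z) j) (pos a (act z) i) : ℚ) : ℝ)) = Pi.single j 1 := by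
  funext i
  have h1 := congrFun (congrFun (Matrix.mul_nonsing_inv _ (isUnit_NQ hV hN))
    ⟨_, pos_lt i⟩) ⟨_, pos_lt j⟩
  simp only [Matrix.mul_apply, ← cast_invF, matR_apply, Matrix.one_apply, Fin.mk.injEq,
    pos_inj] at h1
  rw [← Finset.sum_range (fun l => ((NQ a z (pos a (act z) i) l : ℚ) : ℝ) *
    ((invF (2 * ne a) (NQ a z) l (pos a (act z) j) : ℚ) : ℝ))] at h1
  simp only [mulVec, dotProduct, Nm_eq hV]
  rw [sum_pos_eq (p := act z) (fun l => ((NQ a z (pos a (act z) i) l : ℚ) : ℝ) *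
    ((nQ a z (pos a (act z) j) l : ℚ) : ℝ))
    (fun k _ h => by rw [nQ, if_pos (not_not.1 h)]; simp), Pi.single_apply, ← h1]
  refine Finset.sum_congr rfl fun k hk => ?_
  by_cases h : vent z.2 (edg a k) = 0
  · have hne : pos a (act z) i ≠ k := fun h' => p_edg_pos (p := act z) i (h' ▸ h)
    rw [NQ, if_pos (Or.inr h), if_neg hne]
    simp
  · rw [nQ, if_neg h]

/-- a step supported on the edges with `p` -/
theorem stepP_eq [DecidablePred p] (hV : Valid a) {z' : St}
    (h : ∀ e < ne a, ¬ p e → vent z'.1 e = vent z.1 e ∧ vent z'.2 e = vent z.2 e) :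
    stepP (PR a z) (vA a p) (rd a p z'.1 - rd a p z.1) (rd a p z'.2 - rd a p z.2) = PR a z' := by
  funext s
  ext i j
  simp only [stepP, upd, Matrix.sub_apply, Matrix.sum_apply, Matrix.smul_apply, smul_eq_mul, vA,
    Pi.sub_apply, rd]
  rw [sum_sub (p := p) (fun e => (sg s * ((vent z'.1 e : ℝ) - (vent z.1 e : ℝ)) +
    ((vent z'.2 e : ℝ) - (vent z.2 e : ℝ))) * vecMulVec (vR a s e) (vR a s e) i j),
    PR_apply, PR_apply, sub_sub, ← Finset.sum_add_distrib]
  congr 1
  refine Finset.sum_congr rfl fun e he => ?_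
  split_ifs with hp
  · rw [vecMulVec_vR (hV.w_nonneg s e (mem_range.1 he))]
    simp only [bR]
    push_cast
    ring
  · obtain ⟨h1, h2⟩ := h e (mem_range.1 he) hp
    rw [h1, h2, add_zero]

end Crest.Agent.X37.KS.Lp
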