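import Crest.Agent.X37.KS.Gram

/-!
# Row 37, KS-A: the column lemma

For `N = W + Cᵀ A C` (`W`, `A` diagonal, `C` of shape `m × 2m`), some column of `N⁻¹` has a small
penalty and a small energy relative to its `W`-norm.
-/

namespace Crest.Agent.X37.KS

open Matrix

section col
variable {ι κ : Type} [Fintype ι] [Fintype κ] [DecidableEq κ]

lemma reg_mulVec {w : κ → ℝ} {a : ι → ℝ} {C : Matrix ι κ ℝ} {N : Matrix κ κ ℝ}
    (hN : ∀ p q, N p q = (if p = q then w p else 0) + ∑ e, a e * C e p * C e q) (n : κ → ℝ)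
    (p : κ) : (N *ᵥ n) p = w p * n p + ∑ e, C e p * (a e * (C *ᵥ n) e) := by
  simp only [mulVec, dotProduct, hN, add_mul, Finset.sum_add_distrib, ite_mul, zero_mul,
    Finset.sum_ite_eq, Finset.mem_univ, if_true, Finset.sum_mul, Finset.mul_sum]
  rw [Finset.sum_comm]
  congr 1
  exact Finset.sum_congr rfl fun e _ => Finset.sum_congr rfl fun q _ => by ring

lemma reg_form {w : κ → ℝ} {a : ι → ℝ} {C : Matrix ι κ ℝ} {N : Matrix κ κ ℝ}
    (hN : ∀ p q, N p q = (if p = q then w p else 0) + ∑ e, a e * C e p * C e q) (n : κ → ℝ) :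
    n ⬝ᵥ (N *ᵥ n) = ∑ p, w p * n p ^ 2 + ∑ e, a e * (C *ᵥ n) e ^ 2 := by
  simp only [dotProduct, reg_mulVec hN, mul_add, Finset.sum_add_distrib, Finset.mul_sum]
  congr 1
  · exact Finset.sum_congr rfl fun p _ => by ring
  · rw [Finset.sum_comm]
    refine Finset.sum_congr rfl fun e _ => ?_
    have : (C *ᵥ n) e = ∑ p, C e p * n p := rfl
    rw [sq, ← mul_assoc]
    conv_rhs => rw [this, Finset.mul_sum]
    exact Finset.sum_congr rfl fun p _ => by rw [← this]; ring

/-- The regularised form is positive definite. -/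
lemma reg_posDef {w : κ → ℝ} (hw : ∀ j, 0 < w j) {a : ι → ℝ} (ha : ∀ e, 0 ≤ a e)
    {C : Matrix ι κ ℝ} {N : Matrix κ κ ℝ}
    (hN : ∀ p q, N p q = (if p = q then w p else 0) + ∑ e, a e * C e p * C e q) : N.PosDef := by
  refine Matrix.PosDef.of_dotProduct_mulVec_pos ?_ fun x hx => ?_
  · ext p q
    simp only [conjTranspose_apply, star_trivial, hN]
    congr 1
    · by_cases h : p = q
      · subst h; rfl
      · rw [if_neg h, if_neg (Ne.symm h)]
    · exact Finset.sum_congr rfl fun e _ => by ring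
  · rw [star_trivial, reg_form hN]
    obtain ⟨p, hp⟩ := Function.ne_iff.1 hx
    refine add_pos_of_pos_of_nonneg (Finset.sum_pos' (fun q _ => ?_) ⟨p, Finset.mem_univ _, ?_⟩)
      (Finset.sum_nonneg fun e _ => mul_nonneg (ha e) (sq_nonneg _))
    · exact mul_nonneg (hw q).le (sq_nonneg _)
    · exact mul_pos (hw p) (sq_pos_of_ne_zero hp)

/-- `N⁻¹ W N⁻¹ ≤ W⁻¹`. -/
lemma reg_wnorm_le {w : κ → ℝ} (hw : ∀ j, 0 < w j) {a : ι → ℝ} (ha : ∀ e, 0 ≤ a e)
    {C : Matrix ι κ ℝ} {N : Matrix κ κ ℝ}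
    (hN : ∀ p q, N p q = (if p = q then w p else 0) + ∑ e, a e * C e p * C e q) (n : κ → ℝ) :
    ∑ p, w p * n p ^ 2 ≤ ∑ p, (N *ᵥ n) p ^ 2 / w p := by
  have h1 : ∀ p, 2 * (n p * (N *ᵥ n) p) - w p * n p ^ 2 ≤ (N *ᵥ n) p ^ 2 / w p := fun p => by
    rw [le_div_iff₀ (hw p)]
    nlinarith [sq_nonneg ((N *ᵥ n) p - w p * n p)]
  have h2 := Finset.sum_le_sum fun p (_ : p ∈ Finset.univ) => h1 p
  have h3 := reg_form hN n
  have h4 : 0 ≤ ∑ e, a e * (C *ᵥ n) e ^ 2 :=
    Finset.sum_nonneg fun e _ => mul_nonneg (ha e) (sq_nonneg _)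
  rw [Finset.sum_sub_distrib, ← Finset.mul_sum] at h2
  simp only [dotProduct] at h3
  linarith

/-- The column lemma, with the energy given as a sum of squares. -/
theorem exists_col_sq [Nonempty ι] {μ : Type} [Fintype μ]
    (hc : Fintype.card κ = 2 * Fintype.card ι)
    {w : κ → ℝ} (hw : ∀ j, 0 < w j) {a : ι → ℝ} (ha : ∀ e, 0 ≤ a e)
    {C : Matrix ι κ ℝ} {N : Matrix κ κ ℝ}
    (hN : ∀ p q, N p q = (if p = q then w p else 0) + ∑ e, a e * C e p * C e q)
    (L : Matrix μ κ ℝ) {t al be : ℝ} (hal : 0 ≤ al) (hbe : 0 ≤ be)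
    (htr : ∑ j, (∑ u, L u j ^ 2) / w j ≤ t * Fintype.card ι) (h : al / 2 + be * t ≤ 1) :
    ∃ j, ∀ n : κ → ℝ, N *ᵥ n = Pi.single j 1 →
      al * (∑ e, a e * (C *ᵥ n) e ^ 2) + be * (∑ u, (L *ᵥ n) u ^ 2) ≤ ∑ p, w p * n p ^ 2 := by
  have hP := reg_posDef hw ha hN
  set X := N⁻¹ with hX
  have hXs : ∀ p q, X p q = X q p := fun p q => by
    have := hP.inv.isHermitian.apply p q
    simpa using this.symm
  let col : κ → κ → ℝ := fun j p => X p j
  have hcol : ∀ j, col j = X *ᵥ Pi.single j 1 := fun j => by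
    ext p; simp [col, mulVec, dotProduct, Pi.single_apply]
  have hNcol : ∀ j, N *ᵥ col j = Pi.single j 1 := fun j => by rw [hcol, pd_mul_inv hP]
  set m : ℝ := (Fintype.card ι : ℝ) with hm
  have hk : ∑ _j : κ, (1 : ℝ) = 2 * m := by simp [hc, hm]
  -- the three sums
  set A1 := ∑ j, w j * ∑ p, w p * col j p ^ 2 with hA1
  set A2 := ∑ j, w j * ∑ e, a e * (C *ᵥ col j) e ^ 2 with hA2
  set A3 := ∑ j, w j * ∑ u, (L *ᵥ col j) u ^ 2 with hA3
  set trY := ∑ j, w j * X j j with htrY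
  have h12 : A1 + A2 = trY := by
    rw [hA1, hA2, ← Finset.sum_add_distrib]
    refine Finset.sum_congr rfl fun j _ => ?_
    rw [← mul_add, ← reg_form hN, hNcol]
    simp [col]
  have hdiag : ∑ j, (w j * X j j) ^ 2 ≤ A1 := Finset.sum_le_sum fun j _ => by
    have : w j * col j j ^ 2 ≤ ∑ p, w p * col j p ^ 2 :=
      Finset.single_le_sum (f := fun p => w p * col j p ^ 2)
        (fun p _ => mul_nonneg (hw p).le (sq_nonneg _)) (Finset.mem_univ j)
    calc (w j * X j j) ^ 2 = w j * (w j * col j j ^ 2) := by simp only [col]; ring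
      _ ≤ _ := mul_le_mul_of_nonneg_left this (hw j).le
  have hA2le : A2 ≤ m / 2 := by
    have : ∑ j, (w j * X j j - (w j * X j j) ^ 2) ≤ ∑ _j : κ, (1 / 4 : ℝ) * 1 :=
      Finset.sum_le_sum fun j _ => by nlinarith [sq_nonneg (w j * X j j - 1 / 2)]
    rw [Finset.sum_sub_distrib, ← Finset.mul_sum, hk] at this
    linarith
  -- rows of `C` pushed through `X`
  let r : ι → κ → ℝ := fun e => X *ᵥ C e
  have hr : ∀ e j, (C *ᵥ col j) e = r e j := fun e j => by
    simp only [r, col, mulVec, dotProduct]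
    exact Finset.sum_congr rfl fun p _ => by rw [hXs j p]; ring
  set S : ι → ℝ := fun e => a e * (C *ᵥ r e) e with hS
  have htr1 : trY + ∑ e, S e = 2 * m := by
    have h1 : ∀ j, w j * X j j + ∑ e, C e j * (a e * r e j) = 1 := fun j => by
      have := congrFun (hNcol j) j
      rw [reg_mulVec hN] at this
      simpa [hr, col] using this
    rw [← hk, ← Finset.sum_congr rfl fun j _ => h1 j, Finset.sum_add_distrib, Finset.sum_comm]
    congr 1
    refine Finset.sum_congr rfl fun e _ => ?_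
    simp only [hS, mulVec, dotProduct, Finset.mul_sum]
    exact Finset.sum_congr rfl fun j _ => by ring
  have hA2' : A2 ≤ ∑ e, (S e - S e ^ 2) := by
    have e1 : A2 = ∑ e, a e * ∑ j, w j * r e j ^ 2 := by
      simp only [hA2, hr, Finset.mul_sum]
      rw [Finset.sum_comm]
      exact Finset.sum_congr rfl fun e _ => Finset.sum_congr rfl fun j _ => by ring
    rw [e1]
    refine Finset.sum_le_sum fun e _ => ?_
    have h1 := reg_form hN (r e)
    have h2 : N *ᵥ r e = C e := pd_mul_inv hP _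
    have h3 : r e ⬝ᵥ C e = (C *ᵥ r e) e := dotProduct_comm _ _
    rw [h2, h3] at h1
    have h4 : a e * (C *ᵥ r e) e ^ 2 ≤ ∑ f, a f * (C *ᵥ r e) f ^ 2 :=
      Finset.single_le_sum (f := fun f => a f * (C *ᵥ r e) f ^ 2)
        (fun f _ => mul_nonneg (ha f) (sq_nonneg _)) (Finset.mem_univ e)
    have h5 : ∑ j, w j * r e j ^ 2 ≤ (C *ᵥ r e) e - a e * (C *ᵥ r e) e ^ 2 := by linarith
    calc _ ≤ a e * ((C *ᵥ r e) e - a e * (C *ᵥ r e) e ^ 2) := mul_le_mul_of_nonneg_left h5 (ha e)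
      _ = _ := by simp only [hS]; ring
  have hA1ge : m ≤ A1 := by
    have : ∑ e, (S e + (S e - S e ^ 2)) ≤ ∑ _e : ι, (1 : ℝ) :=
      Finset.sum_le_sum fun e _ => by nlinarith [sq_nonneg (S e - 1)]
    rw [Finset.sum_add_distrib] at this
    simp only [Finset.sum_const, Finset.card_univ, nsmul_eq_mul, mul_one] at this
    linarith
  have hA3le : A3 ≤ t * m := by
    have e1 : A3 = ∑ u, ∑ j, w j * (X *ᵥ L u) j ^ 2 := by
      simp only [hA3, Finset.mul_sum]
      rw [Finset.sum_comm]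
      refine Finset.sum_congr rfl fun u _ => Finset.sum_congr rfl fun j _ => ?_
      congr 2
      simp only [col, mulVec, dotProduct]
      exact Finset.sum_congr rfl fun p _ => by rw [hXs j p]; ring
    have e2 : ∑ j, (∑ u, L u j ^ 2) / w j = ∑ u, ∑ j, L u j ^ 2 / w j := by
      simp only [Finset.sum_div]; exact Finset.sum_comm
    rw [e2] at htr
    refine le_trans ?_ htr
    rw [e1]
    refine Finset.sum_le_sum fun u _ => ?_
    have := reg_wnorm_le hw ha hN (X *ᵥ L u)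
    rwa [pd_mul_inv hP] at this
  have hm0 : 0 < m := by rw [hm]; exact_mod_cast Fintype.card_pos
  have hκ : (Finset.univ : Finset κ).Nonempty := by
    rw [← Finset.card_pos, Finset.card_univ, hc]
    have := Fintype.card_pos (α := ι)
    omega
  have hsum : ∑ j, w j * (al * (∑ e, a e * (C *ᵥ col j) e ^ 2) + be * ∑ u, (L *ᵥ col j) u ^ 2) ≤
      ∑ j, w j * ∑ p, w p * col j p ^ 2 := by
    have e1 : ∑ j, w j * (al * (∑ e, a e * (C *ᵥ col j) e ^ 2) + be * ∑ u, (L *ᵥ col j) u ^ 2) =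
        al * A2 + be * A3 := by
      rw [hA2, hA3, Finset.mul_sum, Finset.mul_sum, ← Finset.sum_add_distrib]
      exact Finset.sum_congr rfl fun j _ => by ring
    rw [e1, ← hA1]
    have h1 := mul_le_mul_of_nonneg_left hA2le hal
    have h2 := mul_le_mul_of_nonneg_left hA3le hbe
    have h3 := mul_le_mul_of_nonneg_right h hm0.le
    nlinarith
  obtain ⟨j, -, hj⟩ := Finset.exists_le_of_sum_le hκ hsum
  refine ⟨j, fun n hn => ?_⟩
  have : n = col j := by rw [hcol, ← hn, pd_inv_mul hP]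
  rw [this]
  exact le_of_mul_le_mul_left hj (hw j)

/-- The column lemma, with the energy given by a positive semidefinite matrix. -/
theorem exists_col [Nonempty ι] (hc : Fintype.card κ = 2 * Fintype.card ι)
    {w : κ → ℝ} (hw : ∀ j, 0 < w j) {a : ι → ℝ} (ha : ∀ e, 0 ≤ a e)
    {C : Matrix ι κ ℝ} {N E : Matrix κ κ ℝ}
    (hN : ∀ p q, N p q = (if p = q then w p else 0) + ∑ e, a e * C e p * C e q)
    (hE : E.PosSemidef) {t al be : ℝ} (hal : 0 ≤ al) (hbe : 0 ≤ be)
    (htr : ∑ j, E j j / w j ≤ t * Fintype.card ι) (h : al / 2 + be * t ≤ 1) :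
    ∃ j, ∀ n : κ → ℝ, N *ᵥ n = Pi.single j 1 →
      al * (∑ e, a e * (C *ᵥ n) e ^ 2) + be * (n ⬝ᵥ (E *ᵥ n)) ≤ ∑ p, w p * n p ^ 2 := by
  obtain ⟨B, hB⟩ := psd_factor hE
  have hd : ∀ j, ∑ u, B u j ^ 2 = E j j := fun j => by
    have := hB (Pi.single j 1)
    simpa [mulVec, dotProduct, Pi.single_apply] using this.symm
  simp only [hB]
  exact exists_col_sq hc hw ha hN B hal hbe (by simpa only [hd] using htr) h

end col

end Crest.Agent.X37.KS
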