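import Crest.Agent.X37.KS.Defs

/-!
# Row 37, KS-A, real layer: Gram matrices in the inverse metric and their perturbation
-/

namespace Crest.Agent.X37.KS

open Matrix

section basic
variable {d : Type} [Fintype d]

lemma psd_symm {A : Matrix d d ℝ} (hA : A.PosSemidef) (x y : d → ℝ) :
    x ⬝ᵥ (A *ᵥ y) = y ⬝ᵥ (A *ᵥ x) := by
  have h : Aᵀ = A := by
    have := hA.isHermitian
    rwa [IsHermitian, conjTranspose_eq_transpose_of_trivial] at this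
  rw [dotProduct_mulVec, ← mulVec_transpose, h, dotProduct_comm]

lemma psd_nonneg {A : Matrix d d ℝ} (hA : A.PosSemidef) (x : d → ℝ) : 0 ≤ x ⬝ᵥ (A *ᵥ x) := by
  simpa using hA.dotProduct_mulVec_nonneg x

lemma pd_pos {A : Matrix d d ℝ} (hA : A.PosDef) {x : d → ℝ} (hx : x ≠ 0) :
    0 < x ⬝ᵥ (A *ᵥ x) := by
  simpa using hA.dotProduct_mulVec_pos hx

/-- Cauchy-Schwarz for a positive semidefinite form. -/
lemma psd_cs {A : Matrix d d ℝ} (hA : A.PosSemidef) (x y : d → ℝ) :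
    (x ⬝ᵥ (A *ᵥ y)) ^ 2 ≤ (x ⬝ᵥ (A *ᵥ x)) * (y ⬝ᵥ (A *ᵥ y)) := by
  have h := discrim_le_zero (a := y ⬝ᵥ (A *ᵥ y)) (b := 2 * (x ⬝ᵥ (A *ᵥ y)))
    (c := x ⬝ᵥ (A *ᵥ x)) (fun t => by
      have h0 := psd_nonneg hA (x + t • y)
      simp only [mulVec_add, mulVec_smul, add_dotProduct, dotProduct_add, smul_dotProduct,
        dotProduct_smul, smul_eq_mul] at h0
      rw [psd_symm hA y x] at h0
      nlinarith [h0])
  rw [discrim] at h
  nlinarith [h]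

lemma psd_add_le {A : Matrix d d ℝ} (hA : A.PosSemidef) (x y : d → ℝ) :
    (x + y) ⬝ᵥ (A *ᵥ (x + y)) ≤ 2 * (x ⬝ᵥ (A *ᵥ x)) + 2 * (y ⬝ᵥ (A *ᵥ y)) := by
  have h0 := psd_nonneg hA (x - y)
  simp only [mulVec_add, mulVec_sub, add_dotProduct, dotProduct_add, sub_dotProduct,
    dotProduct_sub] at h0 ⊢
  linarith

lemma psd_factor {A : Matrix d d ℝ} (hA : A.PosSemidef) :
    ∃ B : Matrix d d ℝ, ∀ x, x ⬝ᵥ (A *ᵥ x) = ∑ k, (B *ᵥ x) k ^ 2 := by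
  classical
  open scoped MatrixOrder in
  obtain ⟨B, hB⟩ := CStarAlgebra.nonneg_iff_eq_star_mul_self.mp hA.nonneg
  refine ⟨B, fun x => ?_⟩
  rw [hB, star_eq_conjTranspose, conjTranspose_eq_transpose_of_trivial, ← mulVec_mulVec,
    dotProduct_mulVec, vecMul_transpose]
  simp [dotProduct, sq]

variable [DecidableEq d]

lemma pd_mul_inv {P : Matrix d d ℝ} (hP : P.PosDef) (v : d → ℝ) : P *ᵥ (P⁻¹ *ᵥ v) = v := by
  rw [mulVec_mulVec, mul_nonsing_inv _ ((isUnit_iff_isUnit_det _).1 hP.isUnit), one_mulVec]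

lemma pd_inv_mul {P : Matrix d d ℝ} (hP : P.PosDef) (v : d → ℝ) : P⁻¹ *ᵥ (P *ᵥ v) = v := by
  rw [mulVec_mulVec, nonsing_inv_mul _ ((isUnit_iff_isUnit_det _).1 hP.isUnit), one_mulVec]

/-- `(v·w)² ≤ (vᵀ P⁻¹ v) (wᵀ P w)`. -/
lemma pd_cs_inv {P : Matrix d d ℝ} (hP : P.PosDef) (v w : d → ℝ) :
    (v ⬝ᵥ w) ^ 2 ≤ (v ⬝ᵥ (P⁻¹ *ᵥ v)) * (w ⬝ᵥ (P *ᵥ w)) := by
  have h := psd_cs hP.posSemidef w (P⁻¹ *ᵥ v)
  rw [pd_mul_inv hP, dotProduct_comm w v, dotProduct_comm (P⁻¹ *ᵥ v) v] at h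
  linarith

/-- Variational bound `2 v·u - uᵀ P u ≤ vᵀ P⁻¹ v`. -/
lemma pd_var {P : Matrix d d ℝ} (hP : P.PosDef) (v u : d → ℝ) :
    2 * (v ⬝ᵥ u) - u ⬝ᵥ (P *ᵥ u) ≤ v ⬝ᵥ (P⁻¹ *ᵥ v) := by
  have h0 := psd_nonneg hP.posSemidef (u - P⁻¹ *ᵥ v)
  simp only [mulVec_sub, sub_dotProduct, dotProduct_sub, pd_mul_inv hP] at h0
  rw [psd_symm hP.posSemidef (P⁻¹ *ᵥ v) u, pd_mul_inv hP, dotProduct_comm u v,
    dotProduct_comm (P⁻¹ *ᵥ v) v] at h0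
  linarith

/-- The inverse form is antitone. -/
lemma inv_form_anti {P P' : Matrix d d ℝ} (hP : P.PosDef) (h : (P' - P).PosSemidef)
    (v : d → ℝ) : P'.PosDef ∧ v ⬝ᵥ (P'⁻¹ *ᵥ v) ≤ v ⬝ᵥ (P⁻¹ *ᵥ v) := by
  have hP' : P'.PosDef := by simpa using hP.add_posSemidef h
  refine ⟨hP', ?_⟩
  have h1 := pd_var hP v (P'⁻¹ *ᵥ v)
  have h2 := psd_nonneg h (P'⁻¹ *ᵥ v)
  rw [sub_mulVec, dotProduct_sub, pd_mul_inv hP', dotProduct_comm (P'⁻¹ *ᵥ v) v] at h2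
  linarith

end basic

section one
variable {ι d : Type} [Fintype ι] [Fintype d] [DecidableEq d]

omit [Fintype ι] in
lemma gam_symm {P : Matrix d d ℝ} (hP : P.PosDef) (v : ι → d → ℝ) (e f : ι) :
    gam P v e f = gam P v f e := psd_symm hP.inv.posSemidef _ _

omit [Fintype ι] in
lemma gam_nonneg {P : Matrix d d ℝ} (hP : P.PosDef) (v : ι → d → ℝ) (e : ι) :
    0 ≤ gam P v e e := psd_nonneg hP.inv.posSemidef _

omit [Fintype ι] in
lemma gam_sq_le {P : Matrix d d ℝ} (hP : P.PosDef) (v : ι → d → ℝ) (e f : ι) :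
    gam P v e f ^ 2 ≤ gam P v e e * gam P v f f := psd_cs hP.inv.posSemidef _ _

omit [Fintype ι] in
/-- Monotonicity used when an edge is frozen. -/
lemma gam_mono {P P' : Matrix d d ℝ} (hP : P.PosDef) (h : (P' - P).PosSemidef)
    (v : ι → d → ℝ) : P'.PosDef ∧ ∀ e, gam P' v e e ≤ gam P v e e :=
  ⟨(inv_form_anti hP h 0).1, fun e => (inv_form_anti hP h (v e)).2⟩

omit [Fintype ι] in
lemma gam_smul {P : Matrix d d ℝ} (hP : P.PosDef) {c : ℝ} (hc : 0 < c) (v : ι → d → ℝ)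
    (e f : ι) : gam (c • P) v e f = gam P v e f / c := by
  have hcP : (c • P).PosDef := hP.smul hc
  have h : (c • P)⁻¹ *ᵥ v f = c⁻¹ • (P⁻¹ *ᵥ v f) := by
    have h1 : (c • P) *ᵥ (c⁻¹ • (P⁻¹ *ᵥ v f)) = v f := by
      rw [smul_mulVec, mulVec_smul, pd_mul_inv hP, smul_smul, mul_inv_cancel₀ hc.ne', one_smul]
    rw [← h1, pd_inv_mul hcP, h1]
  rw [gam, gam, h, dotProduct_smul, smul_eq_mul]
  field_simp

omit [DecidableEq d] in
lemma sum_vecMulVec_mulVec (v : ι → d → ℝ) (δ : ι → ℝ) (w : d → ℝ) :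
    (∑ e, δ e • vecMulVec (v e) (v e)) *ᵥ w = ∑ e, (δ e * (v e ⬝ᵥ w)) • v e := by
  rw [sum_mulVec]
  refine Finset.sum_congr rfl fun e _ => ?_
  rw [smul_mulVec, vecMulVec_mulVec]
  ext k
  simp [mul_comm, mul_left_comm]

omit [DecidableEq d] in
lemma upd_mulVec (P : Matrix d d ℝ) (v : ι → d → ℝ) (δ : ι → ℝ) (w : d → ℝ) :
    upd P v δ *ᵥ w = P *ᵥ w - ∑ e, (δ e * (v e ⬝ᵥ w)) • v e := by
  rw [upd, sub_mulVec, sum_vecMulVec_mulVec]

omit [DecidableEq d] in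
lemma upd_form (P : Matrix d d ℝ) (v : ι → d → ℝ) (δ : ι → ℝ) (u w : d → ℝ) :
    u ⬝ᵥ (upd P v δ *ᵥ w) = u ⬝ᵥ (P *ᵥ w) - ∑ e, δ e * (v e ⬝ᵥ u) * (v e ⬝ᵥ w) := by
  rw [upd_mulVec, dotProduct_sub, dotProduct_sum]
  congr 1
  refine Finset.sum_congr rfl fun e _ => ?_
  rw [dotProduct_smul, smul_eq_mul, dotProduct_comm u]
  ring

omit [DecidableEq d] in
lemma psd_sum_vecMulVec (v : ι → d → ℝ) {δ : ι → ℝ} (hδ : ∀ e, 0 ≤ δ e) :
    (∑ e, δ e • vecMulVec (v e) (v e)).PosSemidef := by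
  refine posSemidef_sum _ fun e _ => PosSemidef.smul ?_ (hδ e)
  simpa using posSemidef_vecMulVec_self_star (v e)

omit [Fintype d] [DecidableEq d] in
lemma upd_isHermitian {P : Matrix d d ℝ} (hP : P.IsHermitian) (v : ι → d → ℝ) (δ : ι → ℝ) :
    (upd P v δ).IsHermitian := by
  refine hP.sub ?_
  rw [IsHermitian, conjTranspose_eq_transpose_of_trivial, transpose_sum]
  refine Finset.sum_congr rfl fun e _ => ?_
  rw [transpose_smul, transpose_vecMulVec]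

lemma upd_half {P : Matrix d d ℝ} (hP : P.PosDef) (v : ι → d → ℝ) {δ : ι → ℝ}
    (h : ∑ e, |δ e| * gam P v e e ≤ 1 / 2) (w : d → ℝ) :
    w ⬝ᵥ (P *ᵥ w) / 2 ≤ w ⬝ᵥ (upd P v δ *ᵥ w) := by
  rw [upd_form]
  have hq := psd_nonneg hP.posSemidef w
  have h1 : ∑ e, δ e * (v e ⬝ᵥ w) * (v e ⬝ᵥ w) ≤
      (∑ e, |δ e| * gam P v e e) * (w ⬝ᵥ (P *ᵥ w)) := by
    rw [Finset.sum_mul]
    refine Finset.sum_le_sum fun e _ => ?_
    have h2 := pd_cs_inv hP (v e) w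
    calc δ e * (v e ⬝ᵥ w) * (v e ⬝ᵥ w) = δ e * (v e ⬝ᵥ w) ^ 2 := by ring
      _ ≤ |δ e| * (v e ⬝ᵥ w) ^ 2 := mul_le_mul_of_nonneg_right (le_abs_self _) (sq_nonneg _)
      _ ≤ |δ e| * (gam P v e e * (w ⬝ᵥ (P *ᵥ w))) :=
          mul_le_mul_of_nonneg_left h2 (abs_nonneg _)
      _ = _ := by ring
  nlinarith [mul_le_mul_of_nonneg_right h hq]

lemma upd_posDef {P : Matrix d d ℝ} (hP : P.PosDef) (v : ι → d → ℝ) {δ : ι → ℝ}
    (h : ∑ e, |δ e| * gam P v e e ≤ 1 / 2) : (upd P v δ).PosDef := by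
  refine PosDef.of_dotProduct_mulVec_pos (upd_isHermitian hP.isHermitian v δ) fun w hw => ?_
  have h1 := upd_half hP v h w
  have h2 := pd_pos hP hw
  simp only [star_trivial]
  linarith

/-- The vector `Δ G v e`. -/
noncomputable def zv (P : Matrix d d ℝ) (v : ι → d → ℝ) (δ : ι → ℝ) (e : ι) : d → ℝ :=
  ∑ f, (δ f * gam P v e f) • v f

/-- First-order change of the leverage. -/
noncomputable def aa (P : Matrix d d ℝ) (v : ι → d → ℝ) (δ : ι → ℝ) (e : ι) : ℝ :=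
  ∑ f, gam P v e f ^ 2 * δ f

/-- Second-order change of the leverage. -/
noncomputable def ZZ (P : Matrix d d ℝ) (v : ι → d → ℝ) (δ : ι → ℝ) (e : ι) : ℝ :=
  zv P v δ e ⬝ᵥ (P⁻¹ *ᵥ zv P v δ e)

lemma ZZ_nonneg {P : Matrix d d ℝ} (hP : P.PosDef) (v : ι → d → ℝ) (δ : ι → ℝ) (e : ι) :
    0 ≤ ZZ P v δ e := psd_nonneg hP.inv.posSemidef _

lemma dot_inv_zv (P : Matrix d d ℝ) (v : ι → d → ℝ) (δ : ι → ℝ) (u : d → ℝ) (e : ι) :
    u ⬝ᵥ (P⁻¹ *ᵥ zv P v δ e) = ∑ f, δ f * gam P v e f * (u ⬝ᵥ (P⁻¹ *ᵥ v f)) := by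
  rw [zv, mulVec_sum, dotProduct_sum]
  refine Finset.sum_congr rfl fun f _ => ?_
  rw [mulVec_smul, dotProduct_smul, smul_eq_mul]

lemma aa_eq (P : Matrix d d ℝ) (v : ι → d → ℝ) (δ : ι → ℝ) (e : ι) :
    aa P v δ e = v e ⬝ᵥ (P⁻¹ *ᵥ zv P v δ e) := by
  rw [dot_inv_zv, aa]
  refine Finset.sum_congr rfl fun f _ => ?_
  rw [gam]; ring

lemma aa_sq_le {P : Matrix d d ℝ} (hP : P.PosDef) (v : ι → d → ℝ) (δ : ι → ℝ) (e : ι) :
    aa P v δ e ^ 2 ≤ gam P v e e * ZZ P v δ e := by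
  rw [aa_eq]; exact psd_cs hP.inv.posSemidef _ _

/-- The resolvent bound `g̃ ≤ g + a + 2 Z`. -/
lemma gam_upd_le {P : Matrix d d ℝ} (hP : P.PosDef) (v : ι → d → ℝ) {δ : ι → ℝ}
    (h : ∑ e, |δ e| * gam P v e e ≤ 1 / 2) (e : ι) :
    gam (upd P v δ) v e e ≤ gam P v e e + aa P v δ e + 2 * ZZ P v δ e := by
  have hP' := upd_posDef hP v h
  set u := (upd P v δ)⁻¹ *ᵥ v e with hu
  set a := P⁻¹ *ᵥ v e with ha
  set b := u - a with hb
  have hub : u = a + b := by rw [hb]; abel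
  have hz : upd P v δ *ᵥ a = v e - zv P v δ e := by
    rw [upd_mulVec, ha, pd_mul_inv hP, zv]
    congr 1
    refine Finset.sum_congr rfl fun f _ => ?_
    rw [gam_symm hP v e f, gam]
  have hbz : upd P v δ *ᵥ b = zv P v δ e := by
    rw [hb, mulVec_sub, hz, hu, pd_mul_inv hP']; abel
  have h1 : gam (upd P v δ) v e e = gam P v e e + v e ⬝ᵥ b := by
    rw [gam, gam, ← hu, ← ha, hub, dotProduct_add]
  have h2 : a ⬝ᵥ zv P v δ e = aa P v δ e := by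
    rw [aa_eq, psd_symm hP.inv.posSemidef, ← ha, dotProduct_comm]
  have h3 : v e ⬝ᵥ b = aa P v δ e + zv P v δ e ⬝ᵥ b := by
    have h4 := psd_symm hP'.posSemidef a b
    rw [hz, hbz, h2, dotProduct_sub, dotProduct_comm b, dotProduct_comm b] at h4
    linarith
  have h5 := upd_half hP v h b
  rw [hbz, dotProduct_comm b (zv P v δ e)] at h5
  have h6 := pd_var hP ((2 : ℝ) • zv P v δ e) b
  rw [smul_dotProduct, smul_dotProduct, mulVec_smul, dotProduct_smul] at h6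
  simp only [smul_eq_mul] at h6
  rw [ZZ]
  linarith

lemma ZZ_le {P : Matrix d d ℝ} (hP : P.PosDef) (v : ι → d → ℝ) (δ : ι → ℝ) (e : ι) :
    ZZ P v δ e ≤ gam P v e e * (∑ f, |δ f| * gam P v f f) ^ 2 := by
  set β := ∑ f, |δ f| * gam P v f f with hβ
  have hβ0 : 0 ≤ β := Finset.sum_nonneg fun f _ => mul_nonneg (abs_nonneg _) (gam_nonneg hP v f)
  have hg := gam_nonneg hP v e
  have hZ := ZZ_nonneg hP v δ e
  set t := Real.sqrt (gam P v e e * ZZ P v δ e) with ht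
  have ht0 : 0 ≤ t := Real.sqrt_nonneg _
  have ht2 : t ^ 2 = gam P v e e * ZZ P v δ e := Real.sq_sqrt (mul_nonneg hg hZ)
  have h1 : ZZ P v δ e ≤ β * t := by
    rw [ZZ, dot_inv_zv, hβ, Finset.sum_mul]
    refine Finset.sum_le_sum fun f _ => ?_
    have hf := gam_nonneg hP v f
    have h2 := gam_sq_le hP v e f
    have h3 : (zv P v δ e ⬝ᵥ (P⁻¹ *ᵥ v f)) ^ 2 ≤ ZZ P v δ e * gam P v f f :=
      psd_cs hP.inv.posSemidef _ _
    have h4 : |gam P v e f * (zv P v δ e ⬝ᵥ (P⁻¹ *ᵥ v f))| ≤ gam P v f f * t := by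
      refine abs_le_of_sq_le_sq' ?_ (mul_nonneg hf ht0) |> abs_le.2
      rw [mul_pow, mul_pow, ht2]
      calc _ ≤ (gam P v e e * gam P v f f) * (ZZ P v δ e * gam P v f f) :=
            mul_le_mul h2 h3 (sq_nonneg _) (mul_nonneg hg hf)
        _ = _ := by ring
    calc δ f * gam P v e f * (zv P v δ e ⬝ᵥ (P⁻¹ *ᵥ v f))
        ≤ |δ f * (gam P v e f * (zv P v δ e ⬝ᵥ (P⁻¹ *ᵥ v f)))| := by
          rw [mul_assoc]; exact le_abs_self _
      _ ≤ |δ f| * (gam P v f f * t) := by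
          rw [abs_mul]; exact mul_le_mul_of_nonneg_left h4 (abs_nonneg _)
      _ = _ := by ring
  have h5 : t ≤ gam P v e e * β := by
    rcases ht0.eq_or_lt with h | h
    · rw [← h]; positivity
    · have : t * t ≤ gam P v e e * β * t := by nlinarith [mul_le_mul_of_nonneg_left h1 hg]
      exact le_of_mul_le_mul_right this h
  nlinarith [mul_le_mul_of_nonneg_left h5 hβ0]

lemma zv_add (P : Matrix d d ℝ) (v : ι → d → ℝ) (δ δ' : ι → ℝ) (e : ι) :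
    zv P v (δ + δ') e = zv P v δ e + zv P v δ' e := by
  simp only [zv, Pi.add_apply, add_mul, add_smul, Finset.sum_add_distrib]

lemma zv_smul (P : Matrix d d ℝ) (v : ι → d → ℝ) (c : ℝ) (δ : ι → ℝ) (e : ι) :
    zv P v (c • δ) e = c • zv P v δ e := by
  simp only [zv, Pi.smul_apply, smul_eq_mul, Finset.smul_sum, smul_smul, mul_assoc]

lemma ZZ_add_le {P : Matrix d d ℝ} (hP : P.PosDef) (v : ι → d → ℝ) (δ δ' : ι → ℝ) (e : ι) :
    ZZ P v (δ + δ') e ≤ 2 * ZZ P v δ e + 2 * ZZ P v δ' e := by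
  rw [ZZ, zv_add]; exact psd_add_le hP.inv.posSemidef _ _

lemma ZZ_smul (P : Matrix d d ℝ) (v : ι → d → ℝ) (c : ℝ) (δ : ι → ℝ) (e : ι) :
    ZZ P v (c • δ) e = c ^ 2 * ZZ P v δ e := by
  rw [ZZ, ZZ, zv_smul, mulVec_smul, smul_dotProduct, dotProduct_smul]
  simp only [smul_eq_mul]; ring

lemma aa_add (P : Matrix d d ℝ) (v : ι → d → ℝ) (δ δ' : ι → ℝ) (e : ι) :
    aa P v (δ + δ') e = aa P v δ e + aa P v δ' e := by
  simp only [aa, Pi.add_apply, mul_add, Finset.sum_add_distrib]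

lemma ZZ_single [DecidableEq ι] (P : Matrix d d ℝ) (v : ι → d → ℝ) (c : ℝ) (f e : ι) :
    ZZ P v (Pi.single f c) e = c ^ 2 * gam P v e f ^ 2 * gam P v f f := by
  have h : zv P v (Pi.single f c) e = (c * gam P v e f) • v f := by
    rw [zv, Finset.sum_eq_single f]
    · simp
    · intro g _ hg; simp [Pi.single_eq_of_ne hg]
    · simp
  rw [ZZ, h, mulVec_smul, smul_dotProduct, dotProduct_smul, ← gam]
  simp only [smul_eq_mul]; ring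

end one

end Crest.Agent.X37.KS
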