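import Crest.Agent.X37.KS.Cast

/-!
# Row 37, KS-A: the invariant of the loop and the final statement
-/

set_option autoImplicit false

namespace Crest.Agent.X37.KS.Lp

open Crest.Agent.Lib.PT Crest.Agent.X37.PT Matrix Finset

/-- feasible states on the grid -/
structure Good (a : Inp) (z : St) : Prop where
  len1 : z.1.length = ne a
  len2 : z.2.length = ne a
  pd : ∀ s, (PR a z s).PosDef
  sl_pos : ∀ e < ne a, vent z.2 e ≠ 0 → 0 < slQ a z e
  r_nonneg : ∀ e < ne a, 0 ≤ vent z.2 e
  x_le : ∀ e < ne a, |vent z.1 e| ≤ 1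
  frozen : ∀ e < ne a, vent z.2 e = 0 → |vent z.1 e| = 1
  grid1 : ∀ e < ne a, OnGrid (pQ a) (vent z.1 e)
  grid2 : ∀ e < ne a, OnGrid (pQ a) (vent z.2 e)

/-- no edge can be rounded -/
def Unr (a : Inp) (z : St) : Prop := ∀ e < ne a, vent z.2 e + |vent z.1 e| ≤ 1

variable {a : Inp} {z : St}

/-! ### parameters -/

theorem pM_pos (a : Inp) : 0 < pM a := Nat.succ_pos _

theorem pT_pos (hV : Valid a) : 0 < pT a := by
  have h1 := pM_pos a
  have h2 := hV.par_pos
  unfold pT
  positivity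

theorem pQ_pos (hV : Valid a) : 0 < pQ a := by
  have h1 := pM_pos a
  have h2 := pT_pos hV
  unfold pQ
  positivity

theorem tauQ_pos (hV : Valid a) : 0 < tauQ a := by
  have h1 : (0 : ℚ) < pM a := by exact_mod_cast pM_pos a
  have h2 : (0 : ℚ) < pT a := by exact_mod_cast pT_pos hV
  unfold tauQ
  positivity

theorem tau_mul (hV : Valid a) : ((tauQ a : ℚ) : ℝ) * (100 * (pM a : ℝ) * (pT a : ℝ)) = 1 := by
  have h1 : (0 : ℝ) < pM a := by exact_mod_cast pM_pos a
  have h2 : (0 : ℝ) < pT a := by exact_mod_cast pT_pos hV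
  unfold tauQ
  push_cast
  field_simp

/-- the grid is fine compared to the step length -/
theorem grid_le (hV : Valid a) : 1 / (pQ a : ℚ) * pT a ≤ tauQ a / 2 := by
  have h1 : 1 ≤ pM a := pM_pos a
  have h2 : 1 ≤ pT a := pT_pos hV
  have h3 : 200 * pM a * pT a ^ 2 ≤ pQ a :=
    Nat.mul_le_mul (Nat.mul_le_mul (by norm_num) (Nat.le_self_pow (by norm_num) _))
      (Nat.pow_le_pow_right h2 (by norm_num))
  have h4 : (200 * pM a * pT a ^ 2 : ℚ) ≤ pQ a := by exact_mod_cast h3
  have h5 : (0 : ℚ) < pM a := by exact_mod_cast h1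
  have h6 : (0 : ℚ) < pT a := by exact_mod_cast h2
  have h7 : (0 : ℚ) < pQ a := by exact_mod_cast pQ_pos hV
  unfold tauQ
  rw [div_mul_eq_mul_div, div_div, div_le_div_iff₀ h7 (by positivity)]
  nlinarith

theorem grid_le' (hV : Valid a) : 1 / (pQ a : ℚ) ≤ tauQ a / 2 := by
  refine le_trans ?_ (grid_le hV)
  have h6 : (1 : ℚ) ≤ pT a := by exact_mod_cast pT_pos hV
  exact le_mul_of_one_le_right (by positivity) h6

theorem card_sub_le (p : ℕ → Prop) [DecidablePred p] : Fintype.card (Sub a p) ≤ ne a :=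
  (Fintype.card_subtype_le _).trans (Fintype.card_fin _).le

theorem card_sub_le' (p : ℕ → Prop) [DecidablePred p] :
    (Fintype.card (Sub a p) : ℝ) ≤ pM a := by
  exact_mod_cast (card_sub_le p).trans (Nat.le_succ _)

/-! ### feasibility -/

theorem Good.feas (hV : Valid a) (h : Good a z) :
    Feas (PR a z) (vA a (act z)) (rd a (act z) z.1) (rd a (act z) z.2) where
  pd := h.pd
  sl_pos e := by
    rw [sl_eq hV]
    exact_mod_cast h.sl_pos _ e.1.2 e.2
  r_pos e := by
    have := lt_of_le_of_ne (h.r_nonneg _ e.1.2) (Ne.symm e.2)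
    unfold rd
    exact_mod_cast this
  x_le e := by
    have := h.x_le _ e.1.2
    unfold rd
    exact_mod_cast this

theorem Unr.real (h : Unr a z) (p : ℕ → Prop) (e : Sub a p) :
    rd a p z.2 e + |rd a p z.1 e| ≤ 1 := by
  have := h _ e.1.2
  unfold rd
  exact_mod_cast this

theorem theta_act (hV : Valid a) :
    Theta (PR a z) (vA a (act z)) (rd a (act z) z.1) (rd a (act z) z.2) = ((thQ a z : ℚ) : ℝ) :=
  theta_eq hV fun _ _ => Iff.rfl

theorem Good.thQ_nonneg (h : Good a z) : 0 ≤ thQ a z := by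
  refine Finset.sum_nonneg fun e he => ?_
  split_ifs with h0
  · exact le_rfl
  · exact (one_div_pos.2 (h.sl_pos e (mem_range.1 he) h0)).le

theorem Good.thQ_pos (h : Good a z) {f : ℕ} (hf : f < ne a) (h0 : vent z.2 f ≠ 0) :
    0 < thQ a z := by
  refine Finset.sum_pos' (fun e he => ?_) ⟨f, mem_range.2 hf, ?_⟩
  · split_ifs with h0
    · exact le_rfl
    · exact (one_div_pos.2 (h.sl_pos e (mem_range.1 he) h0)).le
  · rw [if_neg h0]
    exact one_div_pos.2 (h.sl_pos f hf h0)

theorem Good.one_le (hN : NmPos) (hV : Valid a) (h : Good a z) (hT : thQ a z ≤ pT a) {e : ℕ}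
    (he : e < ne a) (h0 : vent z.2 e ≠ 0) : 1 / (pQ a : ℚ) ≤ tauQ a / 2 * vent z.2 e := by
  have h1 := (hN _ _ _ _ _ _ (pT a) (h.feas hV)
    (by rw [theta_act hV]; exact_mod_cast hT)).2 ⟨⟨e, he⟩, h0⟩
  have h2 : (1 : ℚ) ≤ pT a * vent z.2 e := by
    unfold rd at h1
    exact_mod_cast h1
  have h3 := mul_le_mul_of_nonneg_right (grid_le hV) (h.r_nonneg e he)
  have h4 : (0 : ℚ) ≤ 1 / (pQ a : ℚ) := by positivity
  nlinarith

/-- a small step on the grid, supported on the active edges -/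
structure Small (a : Inp) (z z' : St) : Prop where
  len1 : z'.1.length = ne a
  len2 : z'.2.length = ne a
  off : ∀ e < ne a, vent z.2 e = 0 → vent z'.1 e = vent z.1 e ∧ vent z'.2 e = vent z.2 e
  dx : ∀ e < ne a, |vent z'.1 e - vent z.1 e| ≤ tauQ a
  dr : ∀ e < ne a, |vent z'.2 e - vent z.2 e| ≤ tauQ a * vent z.2 e
  grid1 : ∀ e < ne a, OnGrid (pQ a) (vent z'.1 e)
  grid2 : ∀ e < ne a, OnGrid (pQ a) (vent z'.2 e)

theorem Small.good (hS : StepFeas) (hV : Valid a) (h : Good a z) (hU : Unr a z)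
    (hT : thQ a z ≤ pT a) {z' : St} (hs : Small a z z') :
    Good a z' ∧ ThetaStep (PR a z) (vA a (act z)) (rd a (act z) z.1) (rd a (act z) z.2)
      (rd a (act z) z'.1 - rd a (act z) z.1) (rd a (act z) z'.2 - rd a (act z) z.2) =
        ((thQ a z' : ℚ) : ℝ) := by
  have hP := stepP_eq (z := z) (z' := z') (p := act z) hV fun e he h0 => hs.off e he (not_not.1 h0)
  have hF := hS _ _ _ _ _ _ (rd a (act z) z'.1 - rd a (act z) z.1)
    (rd a (act z) z'.2 - rd a (act z) z.2) (pM a) (pT a) (tauQ a) (h.feas hV) (hU.real _)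
    (by rw [theta_act hV]; exact_mod_cast hT) (card_sub_le' _) (tau_mul hV).le
    (fun e => by
      have := hs.dx _ e.1.2
      simp only [Pi.sub_apply, rd]
      exact_mod_cast this)
    (fun e => by
      have := hs.dr _ e.1.2
      simp only [Pi.sub_apply, rd]
      exact_mod_cast this)
  rw [hP, add_sub_cancel, add_sub_cancel] at hF
  have hr : ∀ e < ne a, vent z.2 e ≠ 0 → 0 < vent z'.2 e := fun e he h0 => by
    have := hF.r_pos ⟨⟨e, he⟩, h0⟩
    unfold rd at this
    exact_mod_cast this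
  have hact : ∀ e < ne a, act z e ↔ vent z'.2 e ≠ 0 := fun e he =>
    ⟨fun h0 => (hr e he h0).ne', fun h0 h1 => h0 ((hs.off e he h1).2.trans h1)⟩
  refine ⟨⟨hs.len1, hs.len2, hF.pd, fun e he h0 => ?_, fun e he => ?_, fun e he => ?_,
    fun e he h0 => ?_, hs.grid1, hs.grid2⟩, ?_⟩
  · have := hF.sl_pos ⟨⟨e, he⟩, (hact e he).2 h0⟩
    rw [sl_eq hV] at this
    exact_mod_cast this
  · by_cases h0 : vent z.2 e = 0
    · rw [(hs.off e he h0).2, h0]
    · exact (hr e he h0).le
  · by_cases h0 : vent z.2 e = 0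
    · rw [(hs.off e he h0).1]
      exact h.x_le e he
    · have := hF.x_le ⟨⟨e, he⟩, h0⟩
      unfold rd at this
      exact_mod_cast this
  · have h1 : vent z.2 e = 0 := by_contra fun h1 => (hact e he).1 h1 h0
    rw [(hs.off e he h1).1]
    exact h.frozen e he h1
  · rw [ThetaStep, hP, add_sub_cancel, add_sub_cancel, theta_eq hV hact]

/-! ### the candidates -/

theorem onGrid_inv (Q : ℕ) : OnGrid Q (1 / (Q : ℚ)) := ⟨1, by simp⟩

theorem small_cand1 (hN : NmPos) (hV : Valid a) (h : Good a z) (hT : thQ a z ≤ pT a) (f : ℕ) :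
    Small a z (cand1 a z f) := by
  have hτ := tauQ_pos hV
  refine ⟨length_vtab _ _, length_vtab _ _, fun e he h0 => ?_, fun e he => ?_, fun e he => ?_,
    fun e he => ?_, fun e he => ?_⟩ <;> simp only [cand1, vent_vtab_of_lt _ he]
  · simp [h0]
  · simpa using hτ.le
  · have h1 := h.r_nonneg e he
    split_ifs with hc
    · have := h.one_le hN hV hT he hc.2
      rw [sub_sub_cancel_left, abs_neg, abs_of_nonneg (by positivity)]
      nlinarith
    · simpa using mul_nonneg hτ.le h1
  · exact h.grid1 e he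
  · split_ifs
    · exact (h.grid2 e he).sub (onGrid_inv _)
    · exact (h.grid2 e he).sub (onGrid_zero _)

theorem abs_cQ_nQ_le (hV : Valid a) (j : ℕ) {i : ℕ} (hi : i < 2 * ne a) :
    |cQ a z j * nQ a z j i| ≤ tauQ a / 2 := by
  have hτ := tauQ_pos hV
  have h1 : |nQ a z j i| ≤ ∑ i ∈ range (2 * ne a), |nQ a z j i| :=
    Finset.single_le_sum (f := fun i => |nQ a z j i|) (fun _ _ => abs_nonneg _) (mem_range.2 hi)
  unfold cQ
  generalize ∑ i ∈ range (2 * ne a), |nQ a z j i| = S at h1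
  have h2 : 0 ≤ S := (abs_nonneg _).trans h1
  rw [abs_mul, abs_of_nonneg (by positivity), div_mul_eq_mul_div]
  exact div_le_of_le_mul₀ h2 (by positivity) (mul_le_mul_of_nonneg_left h1 (by positivity))

theorem gridFloor_zero (Q : ℕ) : gridFloor Q 0 = 0 := by simp [gridFloor]

theorem abs_sgQ (s : Bool) : |sgQ s| = 1 := by cases s <;> simp [sgQ]

theorem OnGrid.sgQ_mul {Q : ℕ} {q : ℚ} (h : OnGrid Q q) (s : Bool) : OnGrid Q (sgQ s * q) := by
  cases s
  · simpa [sgQ] using h.neg
  · simpa [sgQ] using h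

theorem edg_of_lt {e : ℕ} (he : e < ne a) : edg a e = e := if_pos he

theorem edg_add (e : ℕ) : edg a (ne a + e) = e := by simp [edg]

theorem small_cand2 (hN : NmPos) (hV : Valid a) (h : Good a z) (hT : thQ a z ≤ pT a) (s : Bool)
    (j : ℕ) : Small a z (cand2 a z s j) := by
  have hτ := tauQ_pos hV
  have hQ := pQ_pos hV
  refine ⟨length_vtab _ _, length_vtab _ _, fun e he h0 => ?_, fun e he => ?_, fun e he => ?_,
    fun e he => ?_, fun e he => ?_⟩ <;> simp only [cand2, vent_vtab_of_lt _ he]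
  · simp [xiQ, rhoQ, nQ, edg_of_lt he, h0, gridFloor_zero]
  · rw [add_sub_cancel_left, abs_mul, abs_sgQ, one_mul]
    have h1 := abs_gridFloor_sub_le hQ (cQ a z j * nQ a z j e)
    have h2 := abs_cQ_nQ_le (z := z) hV j (i := e) (by omega)
    have h3 := grid_le' hV
    have h4 := abs_add_le (xiQ a z j e - cQ a z j * nQ a z j e) (cQ a z j * nQ a z j e)
    rw [sub_add_cancel] at h4
    unfold xiQ at h4 ⊢
    linarith
  · rw [add_sub_cancel_left, abs_mul, abs_sgQ, one_mul]
    by_cases h0 : vent z.2 e = 0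
    · simp [rhoQ, h0, gridFloor_zero]
    · have h1 := abs_gridFloor_sub_le hQ (vent z.2 e * (cQ a z j * nQ a z j (ne a + e)))
      have h2 := abs_cQ_nQ_le (z := z) hV j (i := ne a + e) (by omega)
      have h3 := h.one_le hN hV hT he h0
      have h5 := h.r_nonneg e he
      have h4 := abs_add_le (rhoQ a z j e - vent z.2 e * (cQ a z j * nQ a z j (ne a + e)))
        (vent z.2 e * (cQ a z j * nQ a z j (ne a + e)))
      rw [sub_add_cancel, abs_mul (vent z.2 e), abs_of_nonneg h5] at h4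
      have h6 := mul_le_mul_of_nonneg_left h2 h5
      unfold rhoQ at h4 ⊢
      linarith
  · exact (h.grid1 e he).add (OnGrid.sgQ_mul (onGrid_gridFloor _ _) s)
  · exact (h.grid2 e he).add (OnGrid.sgQ_mul (onGrid_gridFloor _ _) s)

theorem small_of_mem (hN : NmPos) (hV : Valid a) (h : Good a z) (hT : thQ a z ≤ pT a) {c : St}
    (hc : c ∈ cands a z) : Small a z c := by
  simp only [cands, List.mem_append, List.mem_map] at hc
  rcases hc with ⟨f, -, rfl⟩ | ⟨j, -, rfl⟩ | ⟨j, -, rfl⟩
  · exact small_cand1 hN hV h hT f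
  · exact small_cand2 hN hV h hT true j
  · exact small_cand2 hN hV h hT false j

theorem exists_cand (hS : StepFeas) (hN : NmPos) (hD : ExistsDrop) (hV : Valid a) (h : Good a z)
    (hU : Unr a z) (hT : thQ a z ≤ pT a) {f : ℕ} (hf : f < ne a) (h0 : vent z.2 f ≠ 0) :
    ∃ c ∈ cands a z, thQ a c ≤ thQ a z - 1 / (pQ a : ℚ) / 2 := by
  have : Nonempty (Sub a (act z)) := ⟨⟨⟨f, hf⟩, h0⟩⟩
  have hQ := pQ_pos hV
  have hQ' : (0 : ℝ) < pQ a := by exact_mod_cast hQ
  have hT' : Theta (PR a z) (vA a (act z)) (rd a (act z) z.1) (rd a (act z) z.2) ≤ pT a := by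
    rw [theta_act hV]; exact_mod_cast hT
  have key : ∀ c ∈ cands a z, ∀ ξ ρ, ξ = rd a (act z) c.1 - rd a (act z) z.1 →
      ρ = rd a (act z) c.2 - rd a (act z) z.2 →
      ThetaStep (PR a z) (vA a (act z)) (rd a (act z) z.1) (rd a (act z) z.2) ξ ρ ≤
        Theta (PR a z) (vA a (act z)) (rd a (act z) z.1) (rd a (act z) z.2) - 1 / (pQ a : ℝ) / 2 →
      ∃ c ∈ cands a z, thQ a c ≤ thQ a z - 1 / (pQ a : ℚ) / 2 := by
    rintro c hc _ _ rfl rfl hle
    rw [((small_of_mem hN hV h hT hc).good hS hV h hU hT).2, theta_act hV] at hle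
    refine ⟨c, hc, (Rat.cast_le (K := ℝ)).1 ?_⟩
    push_cast
    exact hle
  rcases hD _ _ _ _ _ _ (pM a) (pT a) (tauQ a) (1 / (pQ a : ℝ)) (h.feas hV) (hU.real _) hT'
    (card_sub_le' _) (tau_mul hV) (by positivity)
    (by rw [div_mul_eq_mul_div, div_le_one hQ']; unfold pQ; push_cast; linarith) with
    ⟨g, hg⟩ | ⟨j, hj⟩
  · refine key (cand1 a z g.1) (List.mem_append_left _
      (List.mem_map_of_mem (List.mem_range.2 g.1.2))) _ _ (funext fun e => ?_)
      (funext fun e => ?_) hg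
    · simp [rd, cand1]
    · simp only [rd, cand1, Pi.sub_apply, vent_vtab_fin, Pi.single_apply, sub_ext_iff]
      by_cases heg : (e.1 : ℕ) = g.1
      · rw [if_pos heg, if_pos ⟨heg, e.2⟩]
        push_cast
        ring
      · rw [if_neg heg, if_neg fun h => heg h.1]
        simp
  · have hPD := (hN _ _ _ _ _ _ (pT a) (h.feas hV) hT').1
    have hcol := Nm_mulVec_nQ hV hPD j
    have hjm : pos a (act z) j ∈ List.range (2 * ne a) := List.mem_range.2 (pos_lt j)
    have hτ : (0 : ℝ) < (tauQ a : ℚ) := by exact_mod_cast tauQ_pos hV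
    have := hj _ (cQ a z (pos a (act z) j) : ℚ)
      (fun e => ((xiQ a z (pos a (act z) j) e.1 : ℚ) : ℝ))
      (fun e => ((rhoQ a z (pos a (act z) j) e.1 : ℚ) : ℝ)) hcol
      (fun i => by exact_mod_cast abs_cQ_nQ_le (z := z) hV (pos a (act z) j) (pos_lt i))
      ?_ (fun e => by
        have := (Rat.cast_le (K := ℝ)).2 (abs_gridFloor_sub_le hQ
          (cQ a z (pos a (act z) j) * nQ a z (pos a (act z) j) e.1))
        push_cast at this
        exact this)
      (fun e => by
        have := (Rat.cast_le (K := ℝ)).2 (abs_gridFloor_sub_le hQ (vent z.2 e.1 *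
          (cQ a z (pos a (act z) j) * nQ a z (pos a (act z) j) (ne a + e.1))))
        push_cast at this
        exact this)
    · rcases this with h1 | h1
      · refine key (cand2 a z true _) (List.mem_append_right _ (List.mem_append_left _
          (List.mem_map_of_mem hjm))) _ _ (funext fun e => ?_) (funext fun e => ?_) h1 <;>
        simp [rd, cand2, sgQ]
      · refine key (cand2 a z false _) (List.mem_append_right _ (List.mem_append_right _
          (List.mem_map_of_mem hjm))) _ _ (funext fun e => ?_) (funext fun e => ?_) h1 <;>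
        simp [rd, cand2, sgQ]
    · generalize pos a (act z) j = k at hcol ⊢
      have hsum := sum_pos_eq (a := a) (p := act z) (fun i => |nQ a z k i|)
        (fun i _ hi => by rw [nQ, if_pos (not_not.1 hi), abs_zero])
      obtain ⟨i, -, hi⟩ := Finset.exists_max_image (univ : Finset (Sub a (act z) ⊕ Sub a (act z)))
        (fun i => |nQ a z k (pos a (act z) i)|) univ_nonempty
      have h1 : ∑ i ∈ range (2 * ne a), |nQ a z k i| ≤
          2 * (pM a : ℚ) * |nQ a z k (pos a (act z) i)| := by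
        rw [← hsum]
        refine (Finset.sum_le_card_nsmul _ _ _ hi).trans ?_
        rw [nsmul_eq_mul, card_univ, Fintype.card_sum]
        refine mul_le_mul_of_nonneg_right ?_ (abs_nonneg _)
        have := (card_sub_le (a := a) (act z)).trans (Nat.le_succ _)
        have h2 : Fintype.card (Sub a (act z)) + Fintype.card (Sub a (act z)) ≤ 2 * pM a := by
          unfold pM; omega
        exact_mod_cast h2
      have h2 : 0 < ∑ i ∈ range (2 * ne a), |nQ a z k i| := by
        rw [← hsum]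
        refine lt_of_le_of_ne (Finset.sum_nonneg fun _ _ => abs_nonneg _) fun h0 => ?_
        have h3 := (Finset.sum_eq_zero_iff_of_nonneg fun _ _ => abs_nonneg _).1 h0.symm
        have h4 : (fun i => ((nQ a z k (pos a (act z) i) : ℚ) : ℝ)) = 0 :=
          funext fun i => by rw [abs_eq_zero.1 (h3 i (mem_univ _))]; simp
        rw [h4, mulVec_zero] at hcol
        simpa using congrFun hcol j
      refine ⟨i, ?_⟩
      have h5 : tauQ a ≤ 4 * (pM a : ℚ) * |cQ a z k * nQ a z k (pos a (act z) i)| := by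
        have hτ := tauQ_pos hV
        unfold cQ
        generalize ∑ i ∈ range (2 * ne a), |nQ a z k i| = S at h1 h2
        rw [abs_mul, abs_of_nonneg (by positivity), div_mul_eq_mul_div, ← mul_div_assoc,
          le_div_iff₀ h2]
        nlinarith
      exact_mod_cast h5

theorem best_spec (hS : StepFeas) (hN : NmPos) (hD : ExistsDrop) (hV : Valid a) (h : Good a z)
    (hU : Unr a z) (hT : thQ a z ≤ pT a) :
    Good a (best a z) ∧ thQ a (best a z) ≤ max 0 (thQ a z - 1 / (pQ a : ℚ) / 2) := by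
  unfold best
  cases hf : (cands a z).find? fun c => decide (thQ a c ≤ thQ a z - 1 / (pQ a : ℚ) / 2) with
  | some c =>
    have h1 := List.find?_some hf
    exact ⟨((small_of_mem hN hV h hT (List.mem_of_find?_eq_some hf)).good hS hV h hU hT).1,
      le_max_of_le_right (of_decide_eq_true h1)⟩
  | none =>
    refine ⟨h, le_max_of_le_left (le_of_eq (Finset.sum_eq_zero fun e he => if_pos ?_))⟩
    by_contra h0
    obtain ⟨c, hc, hle⟩ := exists_cand hS hN hD hV h hU hT (mem_range.1 he) h0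
    exact List.find?_eq_none.1 hf c hc (decide_eq_true hle)

/-! ### freezing -/

theorem cast_slQ (e : ℕ) : ((slQ a z e : ℚ) : ℝ) = (yQ z e : ℝ) -
    ((wq a true e : ℝ) * Inner.ip (PR a z true) (bR a true e) (bR a true e) +
      (wq a false e : ℝ) * Inner.ip (PR a z false) (bR a false e) (bR a false e)) := by
  simp only [slQ, ← cast_gQ]
  push_cast
  rfl

theorem posDef_of_le {s : Bool} (hV : Valid a) {P : Matrix (Fin (dim a)) (Fin (dim a)) ℝ}
    (hP : P.PosDef) {c : ℝ} (hc : 0 < c) (h : ∀ y, c * Inner.qf P y ≤ Inner.qf (PR a z s) y) :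
    (PR a z s).PosDef :=
  Inner.posDef_of_qf (PR_symm (hV.pd s)) fun y hy => (mul_pos hc (Inner.qf_pos hP hy)).trans_le (h y)

theorem freeze_spec (hV : Valid a) (h : Good a z) :
    Good a (freeze a z) ∧ Unr a (freeze a z) ∧ thQ a (freeze a z) ≤ thQ a z := by
  have hQ := pQ_pos hV
  have e1 : ∀ e < ne a, vent (freeze a z).1 e = if 1 ≤ vent z.2 e + |vent z.1 e| then
      (if 0 ≤ vent z.1 e then 1 else -1) else vent z.1 e := fun e he => vent_vtab_of_lt _ he
  have e2 : ∀ e < ne a, vent (freeze a z).2 e = if 1 ≤ vent z.2 e + |vent z.1 e| then 0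
      else vent z.2 e := fun e he => vent_vtab_of_lt _ he
  have hk : ∀ s, ∀ e < ne a, sgQ s * vent (freeze a z).1 e + vent (freeze a z).2 e ≤
      sgQ s * vent z.1 e + vent z.2 e := by
    intro s e he
    rw [e1 e he, e2 e he]
    have h1 := h.x_le e he
    split_ifs with c1 c2
    · rw [abs_of_nonneg c2] at c1 h1
      cases s <;> simp only [sgQ, cond_true, cond_false] <;> linarith
    · rw [abs_of_neg (not_le.1 c2)] at c1 h1
      cases s <;> simp only [sgQ, cond_true, cond_false] <;> linarith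
    · exact le_rfl
  have hq : ∀ s y, 1 * Inner.qf (PR a z s) y ≤ Inner.qf (PR a (freeze a z) s) y := by
    intro s y
    rw [one_mul, qf_PR, qf_PR]
    refine sub_le_sub_left (Finset.sum_le_sum fun e he => ?_) _
    have h1 : (0 : ℝ) ≤ (wq a s e : ℝ) := by exact_mod_cast hV.w_nonneg s e (mem_range.1 he)
    refine mul_le_mul_of_nonneg_right ?_ (by positivity)
    rw [← cast_sgQ]
    exact_mod_cast hk s e (mem_range.1 he)
  have hpd : ∀ s, (PR a (freeze a z) s).PosDef := fun s =>
    posDef_of_le hV (h.pd s) one_pos (hq s)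
  have hact : ∀ e < ne a, vent (freeze a z).2 e ≠ 0 →
      vent z.2 e ≠ 0 ∧ slQ a z e ≤ slQ a (freeze a z) e := by
    intro e he h0
    have c1 : ¬ 1 ≤ vent z.2 e + |vent z.1 e| := fun c => h0 (by rw [e2 e he, if_pos c])
    have h1 : vent (freeze a z).1 e = vent z.1 e := by rw [e1 e he, if_neg c1]
    have h2 : vent (freeze a z).2 e = vent z.2 e := by rw [e2 e he, if_neg c1]
    refine ⟨h2 ▸ h0, ?_⟩
    have h3 : yQ (freeze a z) e = yQ z e := by rw [yQ, yQ, h1, h2]
    have h4 : ∀ s, (wq a s e : ℝ) * Inner.ip (PR a (freeze a z) s) (bR a s e) (bR a s e) ≤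
        (wq a s e : ℝ) * Inner.ip (PR a z s) (bR a s e) (bR a s e) := fun s => by
      have := Inner.ip_mono (h.pd s) (hpd s) one_pos (hq s) (bR a s e)
      rw [one_mul] at this
      exact mul_le_mul_of_nonneg_left this (by exact_mod_cast hV.w_nonneg s e he)
    have h5 : ((slQ a z e : ℚ) : ℝ) ≤ (slQ a (freeze a z) e : ℚ) := by
      rw [cast_slQ, cast_slQ, h3]
      linarith [h4 true, h4 false]
    exact_mod_cast h5
  refine ⟨⟨length_vtab _ _, length_vtab _ _, hpd, fun e he h0 => ?_, fun e he => ?_,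
    fun e he => ?_, fun e he h0 => ?_, fun e he => ?_, fun e he => ?_⟩, fun e he => ?_, ?_⟩
  · exact (h.sl_pos e he (hact e he h0).1).trans_le (hact e he h0).2
  · rw [e2 e he]
    split_ifs
    · exact le_rfl
    · exact h.r_nonneg e he
  · rw [e1 e he]
    split_ifs
    · simp
    · simp
    · exact h.x_le e he
  · rw [e2 e he] at h0
    rw [e1 e he]
    split_ifs with c1 c2
    · simp
    · simp
    · rw [if_neg c1] at h0
      exact h.frozen e he h0
  · rw [e1 e he]
    split_ifs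
    · exact onGrid_one hQ
    · exact (onGrid_one hQ).neg
    · exact h.grid1 e he
  · rw [e2 e he]
    split_ifs
    · exact onGrid_zero _
    · exact h.grid2 e he
  · rw [e1 e he, e2 e he]
    split_ifs with c1 c2
    · simp
    · simp
    · exact (not_le.1 c1).le
  · refine Finset.sum_le_sum fun e he => ?_
    have he := mem_range.1 he
    by_cases h0 : vent (freeze a z).2 e = 0
    · rw [if_pos h0]
      split_ifs with h1
      · exact le_rfl
      · exact (one_div_pos.2 (h.sl_pos e he h1)).le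
    · obtain ⟨h1, h2⟩ := hact e he h0
      rw [if_neg h0, if_neg h1]
      exact one_div_le_one_div_of_le (h.sl_pos e he h1) h2

/-! ### the start -/

theorem start_spec (hV : Valid a) :
    Good a (start a) ∧ Unr a (start a) ∧ thQ a (start a) ≤ pT a := by
  have hR : (1 : ℚ) ≤ par a := by exact_mod_cast hV.par_pos
  have hR' : (0 : ℝ) < par a := by exact_mod_cast hV.par_pos
  have e1 : ∀ e < ne a, vent (start a).1 e = 0 := fun e he => vent_vtab_of_lt _ he
  have e2 : ∀ e < ne a, vent (start a).2 e = 1 / (par a : ℚ) := fun e he => vent_vtab_of_lt _ he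
  have hq : ∀ s y, 1 / (par a : ℝ) * Inner.qf (MR a s) y ≤ Inner.qf (PR a (start a) s) y := by
    intro s y
    have h1 : ∑ e ∈ range (ne a), (sg s * vent (start a).1 e + vent (start a).2 e) *
        ((wq a s e : ℝ) * (bR a s e ⬝ᵥ y) ^ 2) =
        1 / (par a : ℝ) * ∑ e ∈ range (ne a), (wq a s e : ℝ) * (bR a s e ⬝ᵥ y) ^ 2 := by
      rw [Finset.mul_sum]
      refine Finset.sum_congr rfl fun e he => ?_
      rw [e1 e (mem_range.1 he), e2 e (mem_range.1 he)]
      simp
    have h2 := mul_le_mul_of_nonneg_left (hV.dom s y) (one_div_pos.2 hR').le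
    rw [qf_PR, h1, Inner.qf]
    have h3 : 2 / (par a : ℝ) = 2 * (1 / (par a : ℝ)) := by ring
    rw [h3]
    linarith
  have hpd : ∀ s, (PR a (start a) s).PosDef := fun s =>
    posDef_of_le hV (hV.pd s) (one_div_pos.2 hR') (hq s)
  have hsl : ∀ e < ne a, 1 / (2 ^ 17 * (par a : ℚ)) ≤ slQ a (start a) e := by
    intro e he
    have h4 : ∀ s, (wq a s e : ℝ) * Inner.ip (PR a (start a) s) (bR a s e) (bR a s e) ≤
        1 / (2 ^ 18 * (par a : ℝ)) := fun s => by
      have h1 := Inner.ip_mono (hV.pd s) (hpd s) (one_div_pos.2 hR') (hq s) (bR a s e)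
      have h2 := hV.lev s e he
      have h3 : (0 : ℝ) ≤ (wq a s e : ℝ) := by exact_mod_cast hV.w_nonneg s e he
      rw [div_mul_eq_mul_div, one_mul, div_le_iff₀ hR'] at h1
      have h5 := mul_le_mul_of_nonneg_left h1 h3
      rw [le_div_iff₀ (by positivity)]
      refine le_trans (mul_le_mul_of_nonneg_right h5 (by positivity)) (le_trans (le_of_eq ?_) h2)
      unfold Inner.ip
      ring
    have h5 : ((1 / (2 ^ 17 * (par a : ℚ)) : ℚ) : ℝ) ≤ (slQ a (start a) e : ℚ) := by
      rw [cast_slQ, yQ, e1 e he, e2 e he]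
      push_cast
      have h6 : 1 / (2 ^ 17 * (par a : ℝ)) = 2 * (1 / (2 ^ 18 * (par a : ℝ))) := by
        field_simp
      have h7 : 1 / 2 ^ 19 * (1 / (par a : ℝ)) * (8 + 0 ^ 2) = 4 * (1 / (2 ^ 18 * (par a : ℝ))) := by
        field_simp; norm_num
      rw [h6, h7]
      linarith [h4 true, h4 false]
    exact_mod_cast h5
  have hpos : (0 : ℚ) < 1 / (2 ^ 17 * (par a : ℚ)) := by positivity
  refine ⟨⟨length_vtab _ _, length_vtab _ _, hpd, fun e he _ => hpos.trans_le (hsl e he),
    fun e he => ?_, fun e he => ?_, fun e he h0 => ?_, fun e he => ?_, fun e he => ?_⟩,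
    fun e he => ?_, ?_⟩
  · rw [e2 e he]; positivity
  · rw [e1 e he]; simp
  · rw [e2 e he] at h0
    exact absurd h0 (by positivity)
  · rw [e1 e he]; exact onGrid_zero _
  · rw [e2 e he]
    have h1 : pQ a = 2 ^ 30 * pM a ^ 4 * pT a ^ 4 * (2 ^ 17 * pM a) * par a := by
      unfold pQ
      rw [pow_succ (pT a) 4]
      unfold pT
      ring
    have h2 : (0 : ℚ) < pQ a := by exact_mod_cast pQ_pos hV
    refine ⟨(2 ^ 30 * pM a ^ 4 * pT a ^ 4 * (2 ^ 17 * pM a) : ℕ), ?_⟩
    rw [div_eq_div_iff (by positivity) h2.ne', one_mul, Int.cast_natCast, ← Nat.cast_mul, ← h1]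
  · rw [e1 e he, e2 e he, abs_zero, add_zero, div_le_one (by positivity)]
    exact hR
  · refine (Finset.sum_le_card_nsmul _ _ (2 ^ 17 * (par a : ℚ)) fun e he => ?_).trans ?_
    · split_ifs
      · positivity
      · rw [← one_div_one_div (2 ^ 17 * (par a : ℚ))]
        exact one_div_le_one_div_of_le hpos (hsl e (mem_range.1 he))
    · rw [card_range, nsmul_eq_mul]
      unfold pT pM
      push_cast
      nlinarith

/-! ### the end -/

theorem signs_spec (h : Good a z) (h0 : ∀ e < ne a, vent z.2 e = 0) : Spec a (signs a z) := by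
  refine ⟨by simp [signs], fun s y => ?_⟩
  have h1 := Inner.qf_nonneg (h.pd s) y
  rw [qf_PR, sub_nonneg] at h1
  refine le_trans (le_of_eq (Finset.sum_congr rfl fun e he => ?_)) h1
  have he := mem_range.1 he
  have h2 : (signs a z).getD e false = decide (0 ≤ vent z.1 e) := by
    simp [signs, List.getD_eq_getElem?_getD, he]
  have h3 := h.frozen e he (h0 e he)
  rw [h2, h0 e he]
  congr 1
  by_cases c : 0 ≤ vent z.1 e
  · rw [abs_of_nonneg c] at h3
    rw [h3]
    cases s <;> simp [sg]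
  · rw [abs_of_neg (not_le.1 c), neg_eq_iff_eq_neg] at h3
    rw [h3]
    cases s <;> simp [sg]

theorem sz_le_of_grid {Q n : ℕ} (hQ : 0 < Q) {x : List ℚ} (hl : x.length = n)
    (h : ∀ e < n, OnGrid Q (vent x e) ∧ |vent x e| ≤ 1) :
    sz x ≤ n * (8 * (sz (1 : ℕ) + sz Q + 1) + 7 + 1) + 1 := by
  rw [← hl]
  refine sz_list_le fun q hq => ?_
  obtain ⟨e, he, rfl⟩ := List.mem_iff_getElem.1 hq
  have h1 : vent x e = x[e] := by simp [vent, List.getD_eq_getElem?_getD, he]
  obtain ⟨h2, h3⟩ := h e (hl ▸ he)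
  rw [h1] at h2 h3
  exact h2.sz_le hQ (by exact_mod_cast h3)

end Crest.Agent.X37.KS.Lp

namespace Crest.Agent.X37.KS

open Crest.Agent.Lib.PT Crest.Agent.X37.PT Lp

/-- **KS-A** from the analysis of one step and the running times. -/
theorem ks_of (hS : StepFeas) (hN : NmPos) (hD : ExistsDrop) (hP : PTStatement) : KSStatement := by
  obtain ⟨p1, p2, p3, p4, p5, p6, p7⟩ := hP
  have main : Solvable Valid fun a z => Good a z ∧ Unr a z ∧
      thQ a z ≤ max 0 (pT a - (pN a : ℚ) * (1 / (pQ a : ℚ) / 2)) := by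
    refine Solvable.iter (V := Valid) (fun a k z => Good a z ∧ Unr a z ∧
      thQ a z ≤ max 0 (pT a - (k : ℚ) * (1 / (pQ a : ℚ) / 2))) p4 p5
      ⟨start, p1, fun a hV => ?_⟩ p2 (fun a k z hV _ ⟨h1, h2, h3⟩ => ?_)
      (B := fun a => 2 * (ne a * (8 * (sz (1 : ℕ) + sz (pQ a) + 1) + 7 + 1) + 1) + 1) ?_
      (fun a k z hV _ ⟨h1, h2, _⟩ => ?_)
    · obtain ⟨h1, h2, h3⟩ := start_spec hV
      exact ⟨h1, h2, le_max_of_le_right (by simpa using h3)⟩
    · have hγ : (0 : ℚ) ≤ 1 / (pQ a : ℚ) / 2 := by positivity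
      have hT : thQ a z ≤ pT a := h3.trans (max_le (by positivity)
        (sub_le_self _ (by positivity)))
      obtain ⟨h4, h5⟩ := best_spec hS hN hD hV h1 h2 hT
      obtain ⟨h6, h7, h8⟩ := freeze_spec hV h4
      refine ⟨h6, h7, h8.trans (h5.trans (max_le (le_max_left _ _) ?_))⟩
      rcases le_max_iff.1 h3 with h9 | h9
      · exact le_max_of_le_left (by linarith)
      · refine le_max_of_le_right ?_
        push_cast
        linarith
    · have := PB.sz p7
      fun_prop
    · have h3 := sz_le_of_grid (pQ_pos hV) h1.len1 fun e he => ⟨h1.grid1 e he, h1.x_le e he⟩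
      have h4 := sz_le_of_grid (pQ_pos hV) h1.len2 fun e he => ⟨h1.grid2 e he, by
        rw [abs_of_nonneg (h1.r_nonneg e he)]
        linarith [h2 e he, abs_nonneg (vent z.1 e)]⟩
      obtain ⟨x, r⟩ := z
      simp only [sz_mk] at h3 h4 ⊢
      omega
  refine main.bind ⟨_, p3, fun ⟨a, z⟩ ⟨hV, h1, _, h3⟩ => signs_spec h1 fun e he => ?_⟩
  by_contra h0
  have h4 := h1.thQ_pos he h0
  have hQ : (0 : ℚ) < pQ a := by exact_mod_cast pQ_pos hV
  have h5 : (pT a : ℚ) - (pN a : ℚ) * (1 / (pQ a : ℚ) / 2) ≤ 0 := by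
    have : (pN a : ℚ) * (1 / (pQ a : ℚ) / 2) = pT a + 1 / (pQ a : ℚ) / 2 := by
      unfold pN
      push_cast
      field_simp
    rw [this]
    have : (0 : ℚ) ≤ 1 / (pQ a : ℚ) / 2 := by positivity
    linarith
  simp only at h3 h4
  rw [max_eq_left h5] at h3
  exact absurd h4 (not_lt.2 h3)

end Crest.Agent.X37.KS
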