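import Crest.Agent.X37.KS.Alg
import Crest.Agent.X37.PT.Inv

/-!
# Row 37, KS-A: the algorithm runs in polynomial time
-/

set_option autoImplicit false

namespace Crest.Agent.X37.KS

open Crest.Agent.Lib.PT Crest.Agent.X37.PT Finset

section
universe u
variable {α : Type u} [Enc α] {a : α → Inp} {z : α → St} {s : α → Bool} {e f i j : α → ℕ}

@[fun_prop] theorem dim_pt (ha : PT a) :
    PT fun x => dim (a x) := by
  unfold dim; fun_prop

@[fun_prop] theorem dim_pb (ha : PT a) : PB fun x => dim (a x) := by
  unfold dim; fun_prop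

@[fun_prop] theorem ne_pt (ha : PT a) :
    PT fun x => ne (a x) := by
  unfold ne; fun_prop

@[fun_prop] theorem ne_pb (ha : PT a) : PB fun x => ne (a x) := by
  unfold ne; fun_prop

@[fun_prop] theorem par_pt (ha : PT a) :
    PT fun x => par (a x) := by
  unfold par; fun_prop

@[fun_prop] theorem par_pb (ha : PT a) : PB fun x => par (a x) := by
  unfold par; fun_prop

attribute [local irreducible] dim ne par

@[fun_prop] theorem blk_pt (ha : PT a) (hs : PT s) :
    PT fun x => blk (a x) (s x) := by
  unfold blk; fun_prop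

attribute [local irreducible] blk

@[fun_prop] theorem Mq_pt (ha : PT a) (hs : PT s) (hi : PT i) (hj : PT j) :
    PT fun x => Mq (a x) (s x) (i x) (j x) := by
  unfold Mq; fun_prop

@[fun_prop] theorem wq_pt (ha : PT a) (hs : PT s) (he : PT e) :
    PT fun x => wq (a x) (s x) (e x) := by
  unfold wq; fun_prop

@[fun_prop] theorem bq_pt (ha : PT a) (hs : PT s) (he : PT e) (hi : PT i) :
    PT fun x => bq (a x) (s x) (e x) (i x) := by
  unfold bq; fun_prop

attribute [local irreducible] Mq wq bq

@[fun_prop] theorem pM_pt (ha : PT a) :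
    PT fun x => pM (a x) := by
  unfold pM; fun_prop

@[fun_prop] theorem pM_pb (ha : PT a) : PB fun x => pM (a x) := by
  unfold pM; fun_prop

attribute [local irreducible] pM

@[fun_prop] theorem pT_pt (ha : PT a) :
    PT fun x => pT (a x) := by
  unfold pT; fun_prop

@[fun_prop] theorem pT_pb (ha : PT a) : PB fun x => pT (a x) := by
  unfold pT; fun_prop

attribute [local irreducible] pT

@[fun_prop] theorem pQ_pt (ha : PT a) :
    PT fun x => pQ (a x) := by
  unfold pQ; fun_prop

@[fun_prop] theorem pQ_pb (ha : PT a) : PB fun x => pQ (a x) := by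
  unfold pQ; fun_prop

attribute [local irreducible] pQ

@[fun_prop] theorem pN_pt (ha : PT a) :
    PT fun x => pN (a x) := by
  unfold pN; fun_prop

@[fun_prop] theorem pN_pb (ha : PT a) : PB fun x => pN (a x) := by
  unfold pN; fun_prop

attribute [local irreducible] pN

@[fun_prop] theorem tauQ_pt (ha : PT a) :
    PT fun x => tauQ (a x) := by
  unfold tauQ; fun_prop

@[fun_prop] theorem sgQ_pt (hs : PT s) :
    PT fun x => sgQ (s x) := by
  unfold sgQ; fun_prop

attribute [local irreducible] tauQ sgQ

@[fun_prop] theorem PQ_pt (ha : PT a) (hz : PT z) (hs : PT s) (hi : PT i) (hj : PT j) :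
    PT fun x => PQ (a x) (z x) (s x) (i x) (j x) := by
  unfold PQ; fun_prop

attribute [local irreducible] PQ

@[fun_prop] theorem gQ_pt (ha : PT a) (hz : PT z) (hs : PT s) (he : PT e) (hf : PT f) :
    PT fun x => gQ (a x) (z x) (s x) (e x) (f x) := by
  unfold gQ; fun_prop

attribute [local irreducible] gQ

@[fun_prop] theorem hQ_pt (ha : PT a) (hz : PT z) (hs : PT s) (he : PT e) (hf : PT f) :
    PT fun x => hQ (a x) (z x) (s x) (e x) (f x) := by
  unfold hQ; fun_prop

attribute [local irreducible] hQ

@[fun_prop] theorem yQ_pt (hz : PT z) (he : PT e) :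
    PT fun x => yQ (z x) (e x) := by
  unfold yQ; fun_prop

attribute [local irreducible] yQ

@[fun_prop] theorem slQ_pt (ha : PT a) (hz : PT z) (he : PT e) :
    PT fun x => slQ (a x) (z x) (e x) := by
  unfold slQ; fun_prop

attribute [local irreducible] slQ

@[fun_prop] theorem thQ_pt (ha : PT a) (hz : PT z) :
    PT fun x => thQ (a x) (z x) := by
  unfold thQ; fun_prop

attribute [local irreducible] thQ

@[fun_prop] theorem edg_pt (ha : PT a) (hi : PT i) :
    PT fun x => edg (a x) (i x) := by
  unfold edg; fun_prop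

attribute [local irreducible] edg

@[fun_prop] theorem CQ_pt (ha : PT a) (hz : PT z) (he : PT e) (hi : PT i) :
    PT fun x => CQ (a x) (z x) (e x) (i x) := by
  unfold CQ; fun_prop

attribute [local irreducible] CQ

@[fun_prop] theorem NQ_pt (ha : PT a) (hz : PT z) (hi : PT i) (hj : PT j) :
    PT fun x => NQ (a x) (z x) (i x) (j x) := by
  unfold NQ; fun_prop

attribute [local irreducible] NQ

@[fun_prop] theorem nQ_pt (ha : PT a) (hz : PT z) (hj : PT j) (hi : PT i) :
    PT fun x => nQ (a x) (z x) (j x) (i x) := by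
  unfold nQ; fun_prop

attribute [local irreducible] nQ

@[fun_prop] theorem cQ_pt (ha : PT a) (hz : PT z) (hj : PT j) :
    PT fun x => cQ (a x) (z x) (j x) := by
  unfold cQ; fun_prop

attribute [local irreducible] cQ

@[fun_prop] theorem xiQ_pt (ha : PT a) (hz : PT z) (hj : PT j) (he : PT e) :
    PT fun x => xiQ (a x) (z x) (j x) (e x) := by
  unfold xiQ; fun_prop

@[fun_prop] theorem rhoQ_pt (ha : PT a) (hz : PT z) (hj : PT j) (he : PT e) :
    PT fun x => rhoQ (a x) (z x) (j x) (e x) := by
  unfold rhoQ; fun_prop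

attribute [local irreducible] xiQ rhoQ

@[fun_prop] theorem cand1_pt (ha : PT a) (hz : PT z) (hf : PT f) :
    PT fun x => cand1 (a x) (z x) (f x) := by
  unfold cand1; fun_prop

@[fun_prop] theorem cand2_pt (ha : PT a) (hz : PT z) (hs : PT s) (hj : PT j) :
    PT fun x => cand2 (a x) (z x) (s x) (j x) := by
  unfold cand2; fun_prop

attribute [local irreducible] cand1 cand2

@[fun_prop] theorem cands_pt (ha : PT a) (hz : PT z) :
    PT fun x => cands (a x) (z x) := by
  unfold cands; fun_prop

attribute [local irreducible] cands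

@[fun_prop] theorem best_pt (ha : PT a) (hz : PT z) :
    PT fun x => best (a x) (z x) := by
  unfold best; fun_prop

@[fun_prop] theorem freeze_pt (ha : PT a) (hz : PT z) :
    PT fun x => freeze (a x) (z x) := by
  unfold freeze; fun_prop

attribute [local irreducible] best freeze

@[fun_prop] theorem round_pt (ha : PT a) (hz : PT z) :
    PT fun x => round (a x) (z x) := by
  unfold round; fun_prop

@[fun_prop] theorem start_pt (ha : PT a) :
    PT fun x => start (a x) := by
  unfold start; fun_prop

@[fun_prop] theorem signs_pt (ha : PT a) (hz : PT z) :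
    PT fun x => signs (a x) (z x) := by
  unfold signs; fun_prop

end

/-- **The running times of KS-A.** -/
theorem ptStatement : PTStatement :=
  ⟨start_pt PT.id, round_pt PT.id.fst PT.id.snd, signs_pt PT.id.fst PT.id.snd, pN_pt PT.id,
    pN_pb PT.id, ne_pb PT.id, pQ_pt PT.id⟩

end Crest.Agent.X37.KS
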