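import Crest.Agent.X37.KS.Gram

/-!
# Row 37, KS-A, real layer: the finite step lemma
-/

namespace Crest.Agent.X37.KS

open Matrix

lemma inv_add_le {s D : ℝ} (hs : 0 < s) (hD : |D| ≤ s / 2) :
    1 / (s + D) ≤ 1 / s - D / s ^ 2 + 2 * D ^ 2 / s ^ 3 := by
  have h1 := abs_le.1 hD
  have h2 : 0 < s + D := by linarith [h1.1]
  have h3 : 1 / (s + D) = 1 / s - D / s ^ 2 + D ^ 2 / (s ^ 2 * (s + D)) := by
    field_simp; ring
  rw [h3]
  have h4 : D ^ 2 / (s ^ 2 * (s + D)) ≤ 2 * D ^ 2 / s ^ 3 := by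
    rw [div_le_div_iff₀ (by positivity) (by positivity)]
    have : 0 ≤ D ^ 2 * s ^ 2 * (s + 2 * D) :=
      mul_nonneg (by positivity) (by linarith [h1.1])
    nlinarith [this]
  linarith

lemma curv_aux {x ξ σ : ℝ} (hx : |x| ≤ 1) (hσ : |σ| ≤ 1 / 100) :
    (8 + x ^ 2) * (-(ξ ^ 2 + 2 * x * ξ * σ + σ * ξ ^ 2) + |ξ ^ 2 + 2 * x * ξ * σ + σ * ξ ^ 2| / 50
      + (8 + x ^ 2) * (ξ ^ 2 + σ ^ 2) / 70) ≤ ((8 + x ^ 2) * σ + 2 * x * ξ) ^ 2 := by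
  have hx2 : x ^ 2 ≤ 1 := by rw [← sq_abs]; nlinarith [abs_nonneg x]
  have hx0 : 0 ≤ x ^ 2 := sq_nonneg x
  have hσ' := abs_le.1 hσ
  have hu : (x * ξ) ^ 2 ≤ ξ ^ 2 := by rw [mul_pow]; nlinarith [sq_nonneg ξ]
  have hξ := sq_nonneg ξ
  have hσξ1 : σ * ξ ^ 2 ≤ ξ ^ 2 / 100 := by nlinarith [hσ'.2]
  have hσξ2 : -(ξ ^ 2 / 100) ≤ σ * ξ ^ 2 := by nlinarith [hσ'.1]
  have hq : |ξ ^ 2 + 2 * x * ξ * σ + σ * ξ ^ 2| ≤ 3 * (ξ ^ 2 + σ ^ 2) := by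
    rw [abs_le]
    constructor <;> nlinarith [sq_nonneg (x * ξ + σ), sq_nonneg (x * ξ - σ), sq_nonneg σ]
  have h1 : (8 + x ^ 2) * (ξ ^ 2 + σ ^ 2) ≤ 9 * (ξ ^ 2 + σ ^ 2) :=
    mul_le_mul_of_nonneg_right (by linarith) (by positivity)
  have h2 : -(ξ ^ 2 + 2 * x * ξ * σ + σ * ξ ^ 2) + |ξ ^ 2 + 2 * x * ξ * σ + σ * ξ ^ 2| / 50
      + (8 + x ^ 2) * (ξ ^ 2 + σ ^ 2) / 70 ≤
      (8 + x ^ 2) * σ ^ 2 + 4 * σ * (x * ξ) + 4 * (x * ξ) ^ 2 / 9 := by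
    have h3 : 8 * σ ^ 2 ≤ (8 + x ^ 2) * σ ^ 2 :=
      mul_le_mul_of_nonneg_right (by linarith) (sq_nonneg _)
    nlinarith [sq_nonneg (σ + 2 / 5 * (x * ξ)), sq_nonneg (x * ξ), sq_nonneg σ]
  have h4 := mul_le_mul_of_nonneg_left h2 (show 0 ≤ 8 + x ^ 2 by positivity)
  have h5 : (8 + x ^ 2) * (x * ξ) ^ 2 ≤ 9 * (x * ξ) ^ 2 :=
    mul_le_mul_of_nonneg_right (by linarith) (sq_nonneg _)
  nlinarith [h4, h5]

lemma q_abs_le {x ξ σ t : ℝ} (hx : |x| ≤ 1) (hξ : |ξ| ≤ t) (hσ : |σ| ≤ t) (ht1 : t ≤ 1 / 100) :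
    |ξ ^ 2 + 2 * x * ξ * σ + σ * ξ ^ 2| ≤ 4 * t ^ 2 := by
  have h1 : ξ ^ 2 ≤ t ^ 2 := sq_le_sq' (abs_le.1 hξ).1 (abs_le.1 hξ).2
  have h2 : σ ^ 2 ≤ t ^ 2 := sq_le_sq' (abs_le.1 hσ).1 (abs_le.1 hσ).2
  have hx1 : x ^ 2 ≤ 1 := by rw [← sq_abs]; nlinarith only [abs_nonneg x, hx]
  have hu : (x * ξ) ^ 2 ≤ ξ ^ 2 := by rw [mul_pow]; nlinarith only [sq_nonneg ξ, hx1]
  have hσ' := abs_le.1 hσ
  have h3 := mul_le_mul_of_nonneg_right (hσ'.2.trans ht1) (sq_nonneg ξ)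
  have h4 := mul_le_mul_of_nonneg_right (show -(1 / 100 : ℝ) ≤ σ by linarith) (sq_nonneg ξ)
  have h5 := sq_nonneg (x * ξ + σ)
  have h6 := sq_nonneg (x * ξ - σ)
  have h7 := sq_nonneg ξ
  have h8 := sq_nonneg σ
  rw [abs_le]
  constructor
  · nlinarith only [h1, h2, hu, h4, h5, h7, h8]
  · nlinarith only [h1, h2, hu, h3, h6, h7, h8]

lemma lin_abs_le {c x ξ σ y a t : ℝ} (hc : 0 < c) (hx : |x| ≤ 1) (hy0 : 0 < y) (hc8 : 8 * c ≤ y)
    (hy1 : y ≤ 1) (hξ : |ξ| ≤ t) (hσ : |σ| ≤ t) (ha : |a| ≤ 2 * t) :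
    |y * σ + 2 * c * x * ξ - a| ≤ 4 * t := by
  have ht0 : 0 ≤ t := (abs_nonneg _).trans hξ
  have h1 : |y * σ| ≤ t := by
    rw [abs_mul, abs_of_pos hy0]
    exact (mul_le_of_le_one_left (abs_nonneg _) hy1).trans hσ
  have h2 : |2 * c * x * ξ| ≤ t := by
    rw [abs_mul, abs_mul, abs_of_pos (by positivity : 0 < 2 * c)]
    have h3 : 2 * c * |x| ≤ 1 := mul_le_one₀ (by linarith) (abs_nonneg _) hx
    exact (mul_le_of_le_one_left (abs_nonneg _) h3).trans hξ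
  have h3 := abs_sub (y * σ + 2 * c * x * ξ) a
  have h4 := abs_add_le (y * σ) (2 * c * x * ξ)
  linarith

lemma final_aux {l q Z s y N : ℝ} (hs0 : 0 < s) (hZ0 : 0 ≤ Z) (hμ : |q| + 2 * Z ≤ s / 200)
    (h8 : -q + |q| / 50 + y * N / 70 ≤ 2 * l ^ 2 / s + 2 * Z) :
    -((l + (q - 2 * Z)) / s ^ 2) + 2 * (l + (q - 2 * Z)) ^ 2 / s ^ 3 ≤
      -(l / s ^ 2) - y / s ^ 2 * N / 70 + 6 * (Z / s ^ 2 + l ^ 2 / s ^ 3) := by
  have hqZ : |q - 2 * Z| ≤ |q| + 2 * Z := by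
    have := abs_sub q (2 * Z)
    rwa [abs_of_nonneg (by linarith : 0 ≤ 2 * Z)] at this
  have h4 : (q - 2 * Z) ^ 2 ≤ (|q| + 2 * Z) * (s / 200) := by
    rw [← sq_abs, sq]
    exact mul_le_mul hqZ (hqZ.trans hμ) (abs_nonneg _) (by positivity)
  have h3 : (l + (q - 2 * Z)) ^ 2 ≤ 2 * l ^ 2 + (|q| + 2 * Z) * s / 100 := by
    nlinarith only [sq_nonneg (l - (q - 2 * Z)), h4]
  have h12 : 2 * (l + (q - 2 * Z)) ^ 2 / s ≤ 4 * (l ^ 2 / s) + (|q| + 2 * Z) / 50 := by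
    rw [div_le_iff₀ hs0]
    have : (4 * (l ^ 2 / s) + (|q| + 2 * Z) / 50) * s = 4 * l ^ 2 + (|q| + 2 * Z) * s / 50 := by
      field_simp
    rw [this]; linarith
  have h13 : -(l + (q - 2 * Z)) + 2 * (l + (q - 2 * Z)) ^ 2 / s ≤
      -l - y * N / 70 + 6 * (Z + l ^ 2 / s) := by
    have : 2 * l ^ 2 / s = 2 * (l ^ 2 / s) := by ring
    linarith
  have h14 := div_le_div_of_nonneg_right h13 (sq_nonneg s)
  have e1 : (-(l + (q - 2 * Z)) + 2 * (l + (q - 2 * Z)) ^ 2 / s) / s ^ 2 =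
      -((l + (q - 2 * Z)) / s ^ 2) + 2 * (l + (q - 2 * Z)) ^ 2 / s ^ 3 := by
    field_simp
  have e2 : (-l - y * N / 70 + 6 * (Z + l ^ 2 / s)) / s ^ 2 =
      -(l / s ^ 2) - y / s ^ 2 * N / 70 + 6 * (Z / s ^ 2 + l ^ 2 / s ^ 3) := by
    field_simp
  rwa [e1, e2] at h14

lemma curv_le {c x ξ σ y s g a Z : ℝ} (hc : 0 < c) (hx : |x| ≤ 1)
    (hy : y = c * (8 + x ^ 2)) (hsy : s ≤ y) (hs0 : 0 < s) (hgy : g ≤ y)
    (ha : a ^ 2 ≤ g * Z) (hZ0 : 0 ≤ Z) (hσ : |σ| ≤ 1 / 100) :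
    -(c * (ξ ^ 2 + 2 * x * ξ * σ + σ * ξ ^ 2)) + |c * (ξ ^ 2 + 2 * x * ξ * σ + σ * ξ ^ 2)| / 50
      + y * (ξ ^ 2 + σ ^ 2) / 70 ≤ 2 * (y * σ + 2 * c * x * ξ - a) ^ 2 / s + 2 * Z := by
  set l := y * σ + 2 * c * x * ξ - a with hl
  have hy0 : 0 < y := hs0.trans_le hsy
  have h5 : y * (-(c * (ξ ^ 2 + 2 * x * ξ * σ + σ * ξ ^ 2))
      + |c * (ξ ^ 2 + 2 * x * ξ * σ + σ * ξ ^ 2)| / 50
      + y * (ξ ^ 2 + σ ^ 2) / 70) ≤ (l + a) ^ 2 := by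
    have h6 := mul_le_mul_of_nonneg_left (curv_aux (ξ := ξ) hx hσ) (sq_nonneg c)
    rw [abs_mul, abs_of_pos hc]
    have h7 : l + a = c * ((8 + x ^ 2) * σ + 2 * x * ξ) := by rw [hl, hy]; ring
    rw [h7, hy, mul_pow]
    refine le_trans (le_of_eq ?_) h6
    ring
  have h9 : (l + a) ^ 2 ≤ y * (2 * l ^ 2 / s + 2 * Z) := by
    have h10 : 2 * l ^ 2 ≤ y * (2 * l ^ 2 / s) := by
      rw [← mul_div_assoc, le_div_iff₀ hs0, mul_comm y]
      exact mul_le_mul_of_nonneg_left hsy (by positivity)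
    nlinarith only [sq_nonneg (l - a), mul_le_mul_of_nonneg_right hgy hZ0, h10, ha]
  exact le_of_mul_le_mul_left (h5.trans h9) hy0

/-- The step lemma for one edge. -/
lemma scalar_step {c x ξ σ y s g a Z s' t : ℝ} (hc : 0 < c) (hx : |x| ≤ 1)
    (hy : y = c * (8 + x ^ 2)) (hy1 : y ≤ 1) (hs : s = y - g) (hs0 : 0 < s) (hg : 0 ≤ g)
    (ha : a ^ 2 ≤ g * Z) (hZ0 : 0 ≤ Z) (hZ : Z ≤ g * (2 * t) ^ 2) (hξ : |ξ| ≤ t) (hσ : |σ| ≤ t)
    (ht : 100 * t ≤ s) (hs' : c * (1 + σ) * (8 + (x + ξ) ^ 2) - (g + a + 2 * Z) ≤ s') :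
    0 < s' ∧ 1 / s' ≤ 1 / s - (y * σ + 2 * c * x * ξ - a) / s ^ 2
      - y / s ^ 2 * (ξ ^ 2 + σ ^ 2) / 70
      + 6 * (Z / s ^ 2 + (y * σ + 2 * c * x * ξ - a) ^ 2 / s ^ 3) := by
  have ht0 : 0 ≤ t := (abs_nonneg _).trans hξ
  have hsy : s ≤ y := by linarith
  have hy0 : 0 < y := hs0.trans_le hsy
  have hc8 : 8 * c ≤ y := by rw [hy]; nlinarith only [sq_nonneg x, hc]
  have hg1 : g ≤ 1 := by linarith
  have ht1 : t ≤ 1 / 100 := by linarith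
  have hZ4 : Z ≤ (2 * t) ^ 2 := hZ.trans (mul_le_of_le_one_left (sq_nonneg _) hg1)
  have ha2 : |a| ≤ 2 * t :=
    abs_le.2 (abs_le_of_sq_le_sq' (ha.trans ((mul_le_of_le_one_left hZ0 hg1).trans hZ4))
      (by linarith))
  have hl4 := lin_abs_le hc hx hy0 hc8 hy1 hξ hσ ha2
  have h8 := curv_le (ξ := ξ) hc hx hy hsy hs0 (by linarith) ha hZ0 (hσ.trans ht1)
  have hq1 : |c * (ξ ^ 2 + 2 * x * ξ * σ + σ * ξ ^ 2)| ≤ t ^ 2 := by
    rw [abs_mul, abs_of_pos hc]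
    have := mul_le_mul (show c ≤ 1 / 4 by linarith) (q_abs_le hx hξ hσ ht1) (abs_nonneg _)
      (by norm_num)
    linarith
  have hsD : s + ((y * σ + 2 * c * x * ξ - a)
      + (c * (ξ ^ 2 + 2 * x * ξ * σ + σ * ξ ^ 2) - 2 * Z)) ≤ s' := by
    refine le_trans (le_of_eq ?_) hs'
    rw [hs, hy]; ring
  generalize y * σ + 2 * c * x * ξ - a = l at *
  generalize c * (ξ ^ 2 + 2 * x * ξ * σ + σ * ξ ^ 2) = q at *
  have htt : t ^ 2 ≤ t / 100 := by nlinarith only [ht0, ht1]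
  have hμ : |q| + 2 * Z ≤ s / 200 := by nlinarith only [hq1, hZ4, htt, ht, hs0]
  have hqZ : |q - 2 * Z| ≤ |q| + 2 * Z := by
    have := abs_sub q (2 * Z)
    rwa [abs_of_nonneg (by linarith : 0 ≤ 2 * Z)] at this
  have hD : |l + (q - 2 * Z)| ≤ s / 2 := by
    have := abs_add_le l (q - 2 * Z)
    linarith
  have hpos : 0 < s + (l + (q - 2 * Z)) := by linarith [(abs_le.1 hD).1]
  refine ⟨by linarith, ?_⟩
  have h1 : 1 / s' ≤ 1 / (s + (l + (q - 2 * Z))) := one_div_le_one_div_of_le hpos hsD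
  have h2 := inv_add_le hs0 hD
  have h3 := final_aux hs0 hZ0 hμ h8
  linarith

section two
variable {ι d : Type} [Fintype ι] [Fintype d] [DecidableEq d]

/-- Change of the coefficients in block `s`. -/
def del (ξ ρ : ι → ℝ) (s : Bool) : ι → ℝ := fun e => sg s * ξ e + ρ e

/-- First-order change of the two leverages. -/
noncomputable def aT (P : Bool → Matrix d d ℝ) (v : Bool → ι → d → ℝ) (ξ ρ : ι → ℝ) (e : ι) : ℝ :=
  aa (P true) (v true) (del ξ ρ true) e + aa (P false) (v false) (del ξ ρ false) e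

/-- Second-order change of the two leverages. -/
noncomputable def ZT (P : Bool → Matrix d d ℝ) (v : Bool → ι → d → ℝ) (ξ ρ : ι → ℝ) (e : ι) : ℝ :=
  ZZ (P true) (v true) (del ξ ρ true) e + ZZ (P false) (v false) (del ξ ρ false) e

/-- First-order change of the slack. -/
noncomputable def ell (P : Bool → Matrix d d ℝ) (v : Bool → ι → d → ℝ) (x r ξ ρ : ι → ℝ)
    (e : ι) : ℝ :=
  yy x r e * (ρ e / r e) + 2 * (kap * r e) * x e * ξ e - aT P v ξ ρ e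

/-- The linear term. -/
noncomputable def LL (P : Bool → Matrix d d ℝ) (v : Bool → ι → d → ℝ) (x r ξ ρ : ι → ℝ) : ℝ :=
  ∑ e, ell P v x r ξ ρ e / sl P v x r e ^ 2

/-- The good quadratic term. -/
noncomputable def NN (P : Bool → Matrix d d ℝ) (v : Bool → ι → d → ℝ) (x r ξ ρ : ι → ℝ) : ℝ :=
  ∑ e, ww P v x r e * (ξ e ^ 2 + (ρ e / r e) ^ 2)

/-- The bad quadratic term. -/
noncomputable def EV (P : Bool → Matrix d d ℝ) (v : Bool → ι → d → ℝ) (x r ξ ρ : ι → ℝ) : ℝ :=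
  ∑ e, (ZT P v ξ ρ e / sl P v x r e ^ 2 + ell P v x r ξ ρ e ^ 2 / sl P v x r e ^ 3)

variable {P : Bool → Matrix d d ℝ} {v : Bool → ι → d → ℝ} {x r ξ ρ : ι → ℝ} {M T τ : ℝ}

lemma kap_pos : 0 < kap := by unfold kap; positivity

lemma abs_sg (s : Bool) : |sg s| = 1 := by cases s <;> simp [sg]

omit [Fintype ι] in
lemma Feas.gg_nonneg (hF : Feas P v x r) (e : ι) : 0 ≤ gg P v e :=
  add_nonneg (gam_nonneg (hF.pd _) _ _) (gam_nonneg (hF.pd _) _ _)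

omit [Fintype ι] in
lemma Feas.gam_le_gg (hF : Feas P v x r) (s : Bool) (e : ι) : gam (P s) (v s) e e ≤ gg P v e := by
  have h1 := gam_nonneg (hF.pd true) (v true) e
  have h2 := gam_nonneg (hF.pd false) (v false) e
  cases s <;> simp only [gg] <;> linarith

omit [Fintype ι] in
lemma Feas.gg_le (hF : Feas P v x r) (e : ι) : gg P v e ≤ yy x r e := by
  have := hF.sl_pos e
  rw [sl] at this; linarith

omit [Fintype ι] in
lemma Feas.sl_le (hF : Feas P v x r) (e : ι) : sl P v x r e ≤ yy x r e := by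
  have := hF.gg_nonneg e
  rw [sl]; linarith

omit [Fintype ι] in
lemma Feas.yy_pos (hF : Feas P v x r) (e : ι) : 0 < yy x r e :=
  (hF.sl_pos e).trans_le (hF.sl_le e)

omit [Fintype ι] in
lemma Feas.yy_le (hF : Feas P v x r) (e : ι) : yy x r e ≤ 9 * kap * r e := by
  have hx2 : x e ^ 2 ≤ 1 := by
    rw [← sq_abs]; nlinarith only [abs_nonneg (x e), hF.x_le e]
  have := mul_pos kap_pos (hF.r_pos e)
  rw [yy]; nlinarith only [hx2, this]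

omit [Fintype ι] in
lemma Feas.yy_le_r (hF : Feas P v x r) (e : ι) : yy x r e ≤ r e := by
  have h := hF.yy_le e
  have := hF.r_pos e
  rw [kap] at h; linarith

omit [Fintype ι] [Fintype d] [DecidableEq d] in
lemma r_le_one (hU : ∀ e, r e + |x e| ≤ 1) (e : ι) : r e ≤ 1 := by
  linarith [hU e, abs_nonneg (x e)]

omit [Fintype ι] in
lemma Feas.yy_le_one (hF : Feas P v x r) (hU : ∀ e, r e + |x e| ≤ 1) (e : ι) : yy x r e ≤ 1 :=
  (hF.yy_le_r e).trans (r_le_one hU e)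

lemma Feas.one_le_sl (hF : Feas P v x r) (hT : Theta P v x r ≤ T) (e : ι) :
    1 ≤ T * sl P v x r e := by
  have h : 1 / sl P v x r e ≤ Theta P v x r :=
    Finset.single_le_sum (f := fun e => 1 / sl P v x r e)
      (fun e _ => (one_div_pos.2 (hF.sl_pos e)).le) (Finset.mem_univ e)
  exact (div_le_iff₀ (hF.sl_pos e)).1 (h.trans hT)

lemma Feas.T_pos (hF : Feas P v x r) (hT : Theta P v x r ≤ T) (e : ι) : 0 < T :=
  pos_of_mul_pos_of_pos_right' (hF.one_le_sl hT e) (hF.sl_pos e)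
where pos_of_mul_pos_of_pos_right' {a b : ℝ} (h : 1 ≤ a * b) (hb : 0 < b) : 0 < a :=
  (pos_iff_pos_of_mul_pos (zero_lt_one.trans_le h)).2 hb

lemma Feas.one_le_r (hF : Feas P v x r) (hT : Theta P v x r ≤ T) (e : ι) : 1 ≤ T * r e :=
  (hF.one_le_sl hT e).trans
    (mul_le_mul_of_nonneg_left ((hF.sl_le e).trans (hF.yy_le_r e)) (hF.T_pos hT e).le)

lemma Feas.one_le_T (hF : Feas P v x r) (hU : ∀ e, r e + |x e| ≤ 1) (hT : Theta P v x r ≤ T)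
    (e : ι) : 1 ≤ T :=
  (hF.one_le_r hT e).trans (mul_le_of_le_one_right (hF.T_pos hT e).le (r_le_one hU e))

omit [Fintype d] [DecidableEq d] in
lemma one_le_M (hM : (Fintype.card ι : ℝ) ≤ M) (e : ι) : 1 ≤ M := by
  have : 0 < Fintype.card ι := Fintype.card_pos_iff.2 ⟨e⟩
  exact le_trans (by exact_mod_cast this) hM

lemma Feas.sum_del_le (hF : Feas P v x r) (hU : ∀ e, r e + |x e| ≤ 1)
    (hM : (Fintype.card ι : ℝ) ≤ M) (hτ : 0 ≤ τ) (hξ : ∀ e, |ξ e| ≤ τ)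
    (hρ : ∀ e, |ρ e| ≤ τ * r e) (s : Bool) :
    ∑ f, |del ξ ρ s f| * gam (P s) (v s) f f ≤ 2 * (M * τ) := by
  have h : ∀ f ∈ Finset.univ, |del ξ ρ s f| * gam (P s) (v s) f f ≤ 2 * τ := fun f _ => by
    have h1 : |del ξ ρ s f| ≤ 2 * τ := by
      have h2 := abs_add_le (sg s * ξ f) (ρ f)
      rw [abs_mul, abs_sg, one_mul] at h2
      have h3 := mul_le_of_le_one_right hτ (r_le_one hU f)
      rw [del]; linarith [hξ f, hρ f]
    exact (mul_le_of_le_one_right (abs_nonneg _)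
      ((hF.gam_le_gg s f).trans ((hF.gg_le f).trans (hF.yy_le_one hU f)))).trans h1
  have h2 := Finset.sum_le_card_nsmul _ _ _ h
  rw [Finset.card_univ, nsmul_eq_mul] at h2
  nlinarith only [h2, mul_le_mul_of_nonneg_right hM hτ]

lemma Feas.ZT_nonneg (hF : Feas P v x r) (ξ ρ : ι → ℝ) (e : ι) : 0 ≤ ZT P v ξ ρ e :=
  add_nonneg (ZZ_nonneg (hF.pd _) _ _ _) (ZZ_nonneg (hF.pd _) _ _ _)

lemma Feas.ZT_le (hF : Feas P v x r) (hU : ∀ e, r e + |x e| ≤ 1)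
    (hM : (Fintype.card ι : ℝ) ≤ M) (hξ : ∀ e, |ξ e| ≤ τ) (hρ : ∀ e, |ρ e| ≤ τ * r e) (e : ι) :
    ZT P v ξ ρ e ≤ gg P v e * (2 * (M * τ)) ^ 2 := by
  have hτ : 0 ≤ τ := (abs_nonneg _).trans (hξ e)
  have h : ∀ s, ZZ (P s) (v s) (del ξ ρ s) e ≤ gam (P s) (v s) e e * (2 * (M * τ)) ^ 2 := by
    intro s
    refine (ZZ_le (hF.pd s) _ _ _).trans (mul_le_mul_of_nonneg_left ?_ (gam_nonneg (hF.pd s) _ _))
    exact pow_le_pow_left₀ (Finset.sum_nonneg fun f _ =>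
      mul_nonneg (abs_nonneg _) (gam_nonneg (hF.pd s) _ _)) (hF.sum_del_le hU hM hτ hξ hρ s) 2
  rw [ZT, gg, add_mul]
  exact add_le_add (h _) (h _)

lemma Feas.aT_sq_le (hF : Feas P v x r) (ξ ρ : ι → ℝ) (e : ι) :
    aT P v ξ ρ e ^ 2 ≤ gg P v e * ZT P v ξ ρ e := by
  have h1 := aa_sq_le (hF.pd true) (v true) (del ξ ρ true) e
  have h2 := aa_sq_le (hF.pd false) (v false) (del ξ ρ false) e
  have g1 := gam_nonneg (hF.pd true) (v true) e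
  have g2 := gam_nonneg (hF.pd false) (v false) e
  have z1 := ZZ_nonneg (hF.pd true) (v true) (del ξ ρ true) e
  have z2 := ZZ_nonneg (hF.pd false) (v false) (del ξ ρ false) e
  rw [aT, gg, ZT]
  generalize aa (P true) (v true) (del ξ ρ true) e = a at *
  generalize aa (P false) (v false) (del ξ ρ false) e = b at *
  generalize gam (P true) (v true) e e = g at *
  generalize gam (P false) (v false) e e = h at *
  generalize ZZ (P true) (v true) (del ξ ρ true) e = Z at *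
  generalize ZZ (P false) (v false) (del ξ ρ false) e = W at *
  have h3 : (2 * (a * b)) ^ 2 ≤ (g * W + h * Z) ^ 2 := by
    have := mul_le_mul h1 h2 (sq_nonneg _) (mul_nonneg g1 z1)
    nlinarith only [this, sq_nonneg (g * W - h * Z)]
  have h4 := (abs_le_of_sq_le_sq' h3 (by positivity)).2
  nlinarith only [h1, h2, h4]

omit [Fintype ι] in
lemma Feas.abs_div_le (hF : Feas P v x r) (hρ : ∀ e, |ρ e| ≤ τ * r e) (e : ι) :
    |ρ e / r e| ≤ τ := by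
  rw [abs_div, abs_of_pos (hF.r_pos e), div_le_iff₀ (hF.r_pos e)]; exact hρ e

lemma Feas.ell_le (hF : Feas P v x r) (hU : ∀ e, r e + |x e| ≤ 1)
    (hM : (Fintype.card ι : ℝ) ≤ M) (hξ : ∀ e, |ξ e| ≤ τ) (hρ : ∀ e, |ρ e| ≤ τ * r e) (e : ι) :
    |ell P v x r ξ ρ e| ≤ 4 * (M * τ) := by
  have hτ : 0 ≤ τ := (abs_nonneg _).trans (hξ e)
  have hτM : τ ≤ M * τ := le_mul_of_one_le_left hτ (one_le_M hM e)
  have hg1 : gg P v e ≤ 1 := (hF.gg_le e).trans (hF.yy_le_one hU e)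
  have hZ := (hF.ZT_le hU hM hξ hρ e).trans (mul_le_of_le_one_left (sq_nonneg _) hg1)
  have ha : |aT P v ξ ρ e| ≤ 2 * (M * τ) :=
    abs_le.2 (abs_le_of_sq_le_sq' ((hF.aT_sq_le ξ ρ e).trans
      ((mul_le_of_le_one_left (hF.ZT_nonneg ξ ρ e) hg1).trans hZ)) (by linarith))
  have hc := mul_pos kap_pos (hF.r_pos e)
  refine lin_abs_le hc (hF.x_le e) (hF.yy_pos e) ?_ (hF.yy_le_one hU e) ((hξ e).trans hτM)
    ((hF.abs_div_le hρ e).trans hτM) ha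
  rw [yy]; nlinarith only [sq_nonneg (x e), hc]

/-- The finite step lemma. -/
theorem step_main (hF : Feas P v x r) (hU : ∀ e, r e + |x e| ≤ 1) (hT : Theta P v x r ≤ T)
    (hM : (Fintype.card ι : ℝ) ≤ M) (hτ : τ * (100 * M * T) ≤ 1) (hξ : ∀ e, |ξ e| ≤ τ)
    (hρ : ∀ e, |ρ e| ≤ τ * r e) :
    Feas (stepP P v ξ ρ) v (x + ξ) (r + ρ) ∧ ThetaStep P v x r ξ ρ ≤
      Theta P v x r - LL P v x r ξ ρ - NN P v x r ξ ρ / 70 + 6 * EV P v x r ξ ρ := by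
  have ht : ∀ e, 100 * (M * τ) ≤ sl P v x r e := fun e => by
    have h1 := hF.one_le_sl hT e
    have : 100 * (M * τ) * T ≤ sl P v x r e * T := by linarith
    exact le_of_mul_le_mul_right this (hF.T_pos hT e)
  have hτM : ∀ _ : ι, τ ≤ M * τ := fun e =>
    le_mul_of_one_le_left ((abs_nonneg _).trans (hξ e)) (one_le_M hM e)
  have hhalf : ∀ s, ∑ f, |del ξ ρ s f| * gam (P s) (v s) f f ≤ 1 / 2 := fun s => by
    rcases isEmpty_or_nonempty ι with h | ⟨⟨e⟩⟩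
    · simp
    · have h1 := hF.sum_del_le hU hM ((abs_nonneg _).trans (hξ e)) hξ hρ s
      linarith [ht e, hF.sl_le e, hF.yy_le_one hU e]
  have key : ∀ e, 0 < sl (stepP P v ξ ρ) v (x + ξ) (r + ρ) e ∧
      1 / sl (stepP P v ξ ρ) v (x + ξ) (r + ρ) e ≤ 1 / sl P v x r e
        - ell P v x r ξ ρ e / sl P v x r e ^ 2 - ww P v x r e * (ξ e ^ 2 + (ρ e / r e) ^ 2) / 70
        + 6 * (ZT P v ξ ρ e / sl P v x r e ^ 2 + ell P v x r ξ ρ e ^ 2 / sl P v x r e ^ 3) := by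
    intro e
    refine scalar_step (mul_pos kap_pos (hF.r_pos e)) (hF.x_le e) rfl (hF.yy_le_one hU e) rfl
      (hF.sl_pos e) (hF.gg_nonneg e) (hF.aT_sq_le ξ ρ e) (hF.ZT_nonneg ξ ρ e)
      (hF.ZT_le hU hM hξ hρ e) ((hξ e).trans (hτM e)) ((hF.abs_div_le hρ e).trans (hτM e))
      (ht e) ?_
    have h1 := gam_upd_le (hF.pd true) (v true) (hhalf true) e
    have h2 := gam_upd_le (hF.pd false) (v false) (hhalf false) e
    have h3 : kap * r e * (1 + ρ e / r e) = kap * (r e + ρ e) := by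
      have := (hF.r_pos e).ne'
      field_simp
    rw [h3, sl, yy, gg, gg, aT, ZT]
    change _ ≤ kap * (r e + ρ e) * (8 + (x e + ξ e) ^ 2) -
      (gam (upd (P true) (v true) (del ξ ρ true)) (v true) e e +
        gam (upd (P false) (v false) (del ξ ρ false)) (v false) e e)
    linarith
  refine ⟨⟨fun s => upd_posDef (hF.pd s) (v s) (hhalf s), fun e => (key e).1, fun e => ?_,
    fun e => ?_⟩, ?_⟩
  · have h1 := (abs_le.1 (hρ e)).1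
    have h2 : τ ≤ 1 / 100 := by linarith [ht e, hF.sl_le e, hF.yy_le_one hU e, hτM e]
    have h3 := mul_le_mul_of_nonneg_right h2 (hF.r_pos e).le
    have := hF.r_pos e
    simp only [Pi.add_apply]; linarith
  · have h1 := abs_add_le (x e) (ξ e)
    have h2 : 0 ≤ τ := (abs_nonneg _).trans (hξ e)
    simp only [Pi.add_apply]
    linarith [ht e, hF.sl_le e, hF.yy_le_r e, hτM e, hU e, hξ e]
  · rw [ThetaStep, Theta, Theta, LL, NN, EV, Finset.sum_div, Finset.mul_sum,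
      ← Finset.sum_sub_distrib, ← Finset.sum_sub_distrib, ← Finset.sum_add_distrib]
    exact Finset.sum_le_sum fun e _ => (key e).2

end two

theorem stepFeas : StepFeas := by
  intro ι d _ _ _ _ P v x r ξ ρ M T τ hF hU hT hM hτ hξ hρ
  exact (step_main hF hU hT hM hτ hξ hρ).1

end Crest.Agent.X37.KS
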