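import Crest.Agent.X37.KS.Loop
import Crest.Agent.X37.KS.PT
import Crest.Agent.X37.KS.Step

/-!
# Row 37, KS-A: the statement from the two remaining facts on directions
-/

set_option autoImplicit false

namespace Crest.Agent.X37.KS

theorem ks_of_drop (hN : NmPos) (hD : ExistsDrop) : KSStatement :=
  ks_of stepFeas hN hD ptStatement

end Crest.Agent.X37.KS
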